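import Mathlib
import Crest.Prelude.Def_EditDistance

/-! Elementary facts on the unit-cost edit distance, and a binary code for natural-number symbols. -/

set_option autoImplicit false

namespace Crest.Agent.R210
open Crest.GeometryTopology.EditDistance

section basic
variable {α : Type*}

lemma adj_insert (l r : List α) (a : α) : (editGraph α).Adj (l ++ r) (l ++ a :: r) := by
  rw [editGraph, SimpleGraph.fromRel_adj]
  refine ⟨?_, Or.inl (Or.inl ⟨l, r, a, rfl, rfl⟩)⟩
  intro h
  have := congrArg List.length h
  simp at this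

lemma reach_nil (x : List α) : (editGraph α).Reachable [] x := by
  induction x with
  | nil => rfl
  | cons a x ih => exact ih.trans (adj_insert [] x a).reachable

lemma reach (x y : List α) : (editGraph α).Reachable x y :=
  (reach_nil x).symm.trans (reach_nil y)

lemma ed_triangle (x y z : List α) : editDist x z ≤ editDist x y + editDist y z :=
  (reach x y).dist_triangle_left z

lemma ed_comm (x y : List α) : editDist x y = editDist y x := SimpleGraph.dist_comm

lemma ed_self (x : List α) : editDist x x = 0 := SimpleGraph.dist_self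

lemma ed_insert (l r : List α) (a : α) : editDist (l ++ r) (l ++ a :: r) = 1 :=
  SimpleGraph.dist_eq_one_iff_adj.mpr (adj_insert l r a)

lemma ed_hom (f : editGraph α →g editGraph α) (x y : List α) :
    editDist (f x) (f y) ≤ editDist x y := by
  obtain ⟨p, hp⟩ := (reach x y).exists_walk_length_eq_dist
  have := SimpleGraph.dist_le (p.map f)
  rw [SimpleGraph.Walk.length_map, hp] at this
  exact this

lemma rel_wrap (s t : List α) {x y : List α} (h : IsInsertion x y ∨ IsSubstitution x y) :
    IsInsertion (s ++ x ++ t) (s ++ y ++ t) ∨ IsSubstitution (s ++ x ++ t) (s ++ y ++ t) := by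
  rcases h with ⟨l, r, a, rfl, rfl⟩ | ⟨l, r, a, b, hab, rfl, rfl⟩
  · exact Or.inl ⟨s ++ l, r ++ t, a, by simp, by simp⟩
  · exact Or.inr ⟨s ++ l, r ++ t, a, b, hab, by simp, by simp⟩

/-- wrapping a word between two fixed words is a homomorphism of the edit graph -/
def wrapHom (s t : List α) : editGraph α →g editGraph α where
  toFun x := s ++ x ++ t
  map_rel' := by
    intro x y h
    rw [editGraph, SimpleGraph.fromRel_adj] at h ⊢
    refine ⟨?_, h.2.imp (rel_wrap s t) (rel_wrap s t)⟩
    intro e
    exact h.1 (List.append_cancel_left (List.append_cancel_right e))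

lemma ed_wrap (s t x y : List α) : editDist (s ++ x ++ t) (s ++ y ++ t) ≤ editDist x y :=
  ed_hom (wrapHom s t) x y

lemma ed_append (u₁ u₂ v₁ v₂ : List α) :
    editDist (u₁ ++ u₂) (v₁ ++ v₂) ≤ editDist u₁ v₁ + editDist u₂ v₂ := by
  have h1 := ed_wrap [] u₂ u₁ v₁
  have h2 := ed_wrap v₁ [] u₂ v₂
  simp only [List.nil_append, List.append_nil] at h1 h2
  exact (ed_triangle _ (v₁ ++ u₂) _).trans (add_le_add h1 h2)

lemma ed_nil (y : List α) : editDist [] y ≤ y.length := by
  induction y with
  | nil => simp [ed_self]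
  | cons a y ih =>
    have h := ed_insert [] y a
    simp only [List.nil_append] at h
    have := ed_triangle [] y (a :: y)
    simp only [List.length_cons]
    omega

lemma ed_le_length (x y : List α) : editDist x y ≤ x.length + y.length := by
  have h1 := ed_triangle x [] y
  have h2 := ed_nil x
  have h3 := ed_nil y
  rw [ed_comm] at h2
  omega

lemma ed_of_append_eq {x y s t : List α} (h : x ++ t = s ++ y) :
    editDist x y ≤ t.length + s.length := by
  have h1 := ed_append x [] x t
  have h2 := ed_append s y [] y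
  have h3 := ed_nil t
  have h4 := ed_nil s
  rw [ed_comm] at h4
  simp only [List.append_nil, List.nil_append, ed_self] at h1 h2
  have h5 := ed_triangle x (x ++ t) y
  rw [h] at h5 h1
  omega

lemma ed_flatMap_range (n : ℕ) (f g : ℕ → List α) :
    editDist ((List.range n).flatMap f) ((List.range n).flatMap g) ≤
      ∑ i ∈ Finset.range n, editDist (f i) (g i) := by
  induction n with
  | zero => simp [ed_self]
  | succ n ih =>
    rw [List.range_succ, List.flatMap_append, List.flatMap_append, Finset.sum_range_succ]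
    refine (ed_append _ _ _ _).trans (add_le_add ih ?_)
    simp

end basic

/-- lengths of the runs of `false` that end at a `true` -/
def gaps : ℕ → List Bool → List ℕ
  | _, [] => []
  | c, true :: z => c :: gaps 0 z
  | c, false :: z => gaps (c + 1) z

/-- the counter after reading a word -/
def endc : ℕ → List Bool → ℕ
  | c, [] => c
  | _, true :: z => endc 0 z
  | c, false :: z => endc (c + 1) z

lemma gaps_append (l r : List Bool) : ∀ c, gaps c (l ++ r) = gaps c l ++ gaps (endc c l) r := by
  induction l with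
  | nil => intro c; simp [gaps, endc]
  | cons a l ih => intro c; cases a <;> simp [gaps, endc, ih]

lemma gaps_tail (r : List Bool) : ∀ c c', (gaps c r).tail = (gaps c' r).tail := by
  induction r with
  | nil => intro c c'; simp [gaps]
  | cons a r ih =>
    intro c c'
    cases a
    · simp only [gaps]; exact ih _ _
    · simp [gaps]

lemma gaps_head (c : ℕ) (r : List Bool) :
    ∃ P : List ℕ, P.length ≤ 1 ∧ gaps c r = P ++ (gaps 0 r).tail := by
  rw [gaps_tail r 0 c]
  cases h : gaps c r with
  | nil => exact ⟨[], by simp, by simp⟩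
  | cons a t => exact ⟨[a], by simp, by simp⟩

lemma gaps_decomp₀ (l r : List Bool) :
    ∃ P : List ℕ, P.length ≤ 2 ∧ gaps 0 (l ++ r) = gaps 0 l ++ P ++ (gaps 0 r).tail := by
  obtain ⟨P, hP, h⟩ := gaps_head (endc 0 l) r
  exact ⟨P, by omega, by rw [gaps_append, h, List.append_assoc]⟩

lemma gaps_decomp₁ (l r : List Bool) (a : Bool) :
    ∃ P : List ℕ, P.length ≤ 2 ∧ gaps 0 (l ++ a :: r) = gaps 0 l ++ P ++ (gaps 0 r).tail := by
  cases a
  · obtain ⟨P, hP, h⟩ := gaps_head (endc 0 l + 1) r
    exact ⟨P, by omega, by rw [gaps_append, gaps, h, List.append_assoc]⟩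
  · obtain ⟨P, hP, h⟩ := gaps_head 0 r
    refine ⟨endc 0 l :: P, by simp; omega, ?_⟩
    rw [gaps_append, gaps, List.append_assoc, List.cons_append, ← h]

lemma sublist_swap {A P P' T w : List ℕ} (hP : P.length ≤ 2) (h : w.Sublist (A ++ P ++ T)) :
    ∃ w' : List ℕ, w'.Sublist w ∧ w'.Sublist (A ++ P' ++ T) ∧ w.length ≤ w'.length + 2 := by
  obtain ⟨w₁, w₃, rfl, h12, h3⟩ := List.sublist_append_iff.mp h
  obtain ⟨w₁, w₂, rfl, h1, h2⟩ := List.sublist_append_iff.mp h12
  refine ⟨w₁ ++ w₃, ?_, ?_, ?_⟩
  · exact List.Sublist.append (List.sublist_append_left _ _) (List.Sublist.refl _)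
  · exact List.Sublist.append (h1.trans (List.sublist_append_left _ _)) h3
  · have := h2.length_le
    simp only [List.length_append]
    omega

lemma gaps_adj {x y : List Bool} (h : (editGraph Bool).Adj x y) {w : List ℕ}
    (hw : w.Sublist (gaps 0 x)) :
    ∃ w' : List ℕ, w'.Sublist w ∧ w'.Sublist (gaps 0 y) ∧ w.length ≤ w'.length + 2 := by
  rw [editGraph, SimpleGraph.fromRel_adj] at h
  rcases h.2 with (⟨l, r, a, rfl, rfl⟩ | ⟨l, r, a, b, -, rfl, rfl⟩) |
    (⟨l, r, a, rfl, rfl⟩ | ⟨l, r, a, b, -, rfl, rfl⟩)
  · obtain ⟨P, hP, e⟩ := gaps_decomp₀ l r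
    obtain ⟨P', -, e'⟩ := gaps_decomp₁ l r a
    rw [e] at hw; rw [e']; exact sublist_swap hP hw
  · obtain ⟨P, hP, e⟩ := gaps_decomp₁ l r a
    obtain ⟨P', -, e'⟩ := gaps_decomp₁ l r b
    rw [e] at hw; rw [e']; exact sublist_swap hP hw
  · obtain ⟨P, hP, e⟩ := gaps_decomp₁ l r a
    obtain ⟨P', -, e'⟩ := gaps_decomp₀ l r
    rw [e] at hw; rw [e']; exact sublist_swap hP hw
  · obtain ⟨P, hP, e⟩ := gaps_decomp₁ l r b
    obtain ⟨P', -, e'⟩ := gaps_decomp₁ l r a
    rw [e] at hw; rw [e']; exact sublist_swap hP hw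

lemma gaps_walk {x y : List Bool} (p : (editGraph Bool).Walk x y) :
    ∀ w : List ℕ, w.Sublist (gaps 0 x) →
      ∃ w' : List ℕ, w'.Sublist w ∧ w'.Sublist (gaps 0 y) ∧ w.length ≤ w'.length + 2 * p.length := by
  induction p with
  | nil => intro w hw; exact ⟨w, List.Sublist.refl _, hw, by simp⟩
  | cons h p ih =>
    intro w hw
    obtain ⟨w₁, h1, h2, h3⟩ := gaps_adj h hw
    obtain ⟨w₂, h4, h5, h6⟩ := ih w₁ h2
    refine ⟨w₂, h4.trans h1, h5, ?_⟩
    simp only [SimpleGraph.Walk.length_cons]
    omega

/-- the code word `0^n 1 0^(Λ-n) 1` -/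
def code (Λ n : ℕ) : List Bool :=
  List.replicate (min n Λ) false ++ true :: (List.replicate (Λ - n) false ++ [true])

lemma code_length (Λ n : ℕ) : (code Λ n).length = Λ + 2 := by
  simp [code]; omega

lemma ed_code (Λ n n' : ℕ) : editDist (code Λ n) (code Λ n') ≤ 2 := by
  have key : ∀ k, editDist (List.replicate Λ false ++ [true]) (code Λ k) = 1 := by
    intro k
    have h := ed_insert (List.replicate (min k Λ) false)
      (List.replicate (Λ - k) false ++ [true]) true
    rw [← List.append_assoc, ← List.replicate_add] at h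
    have e : min k Λ + (Λ - k) = Λ := by omega
    rw [e] at h
    exact h
  have h1 := key n
  have h2 := key n'
  rw [ed_comm] at h1
  have := ed_triangle (code Λ n) (List.replicate Λ false ++ [true]) (code Λ n')
  omega

lemma gaps_replicate (k : ℕ) (z : List Bool) :
    ∀ c, gaps c (List.replicate k false ++ true :: z) = (c + k) :: gaps 0 z := by
  induction k with
  | zero => intro c; simp [gaps]
  | succ k ih =>
    intro c
    rw [List.replicate_succ, List.cons_append, gaps, ih]
    congr 1; omega

lemma gaps_enc (Λ : ℕ) (x : List ℕ) :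
    gaps 0 (x.flatMap (code Λ)) = x.flatMap (fun n => [min n Λ, Λ - n]) := by
  induction x with
  | nil => simp [gaps]
  | cons a x ih =>
    rw [List.flatMap_cons, List.flatMap_cons, code, List.append_assoc, List.cons_append,
      gaps_replicate, List.append_assoc, List.singleton_append, gaps_replicate, ih]
    simp

lemma exists_common (Λ W : ℕ) (hW : 2 * W ≤ Λ) (x y : List ℕ) (hx : ∀ n ∈ x, n < W)
    (hy : ∀ n ∈ y, n < W) :
    ∃ w : List ℕ, w.Sublist x ∧ w.Sublist y ∧
      x.length ≤ w.length + 2 * editDist (x.flatMap (code Λ)) (y.flatMap (code Λ)) := by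
  obtain ⟨p, hp⟩ := (reach (x.flatMap (code Λ)) (y.flatMap (code Λ))).exists_walk_length_eq_dist
  have hx' : x.Sublist (gaps 0 (x.flatMap (code Λ))) := by
    rw [gaps_enc]
    clear hp p
    induction x with
    | nil => simp
    | cons a x ih =>
      have ha : min a Λ = a := by
        have := hx a (by simp)
        omega
      rw [List.flatMap_cons, ha]
      exact List.Sublist.cons_cons _ (List.Sublist.cons _ (ih fun n hn => hx n (by simp [hn])))
  obtain ⟨w, h1, h2, h3⟩ := gaps_walk p x hx'
  refine ⟨w, h1, ?_, by rw [hp] at h3; exact h3⟩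
  rw [gaps_enc] at h2
  have h4 := h2.filter (fun n => decide (n < W))
  have h5 : w.filter (fun n => decide (n < W)) = w := by
    rw [List.filter_eq_self]
    intro a ha
    simpa using hx a (h1.subset ha)
  have h6 : (y.flatMap (fun n => [min n Λ, Λ - n])).filter (fun n => decide (n < W)) = y := by
    clear h4 h2 h3 hp p
    induction y with
    | nil => simp
    | cons a y ih =>
      have ha := hy a (by simp)
      have ha1 : min a Λ = a := by omega
      have ha2 : ¬ (Λ - a < W) := by omega
      rw [List.flatMap_cons, List.filter_append, ih fun n hn => hy n (by simp [hn]), ha1]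
      simp [ha, ha2]
  rwa [h5, h6] at h4

/-- the binary word showing the symbols `h 0, …, h (L-1)` -/
def str (Λ L : ℕ) (h : ℕ → ℕ) : List Bool := (List.range L).flatMap (fun p => code Λ (h p))

lemma str_length (Λ L : ℕ) (h : ℕ → ℕ) : (str Λ L h).length = L * (Λ + 2) := by
  induction L with
  | zero => simp [str]
  | succ L ih =>
    rw [str, List.range_succ, List.flatMap_append, List.length_append]
    rw [str] at ih
    rw [ih]
    simp [code_length]
    ring

lemma str_add (Λ L L' : ℕ) (h : ℕ → ℕ) :
    str Λ (L + L') h = str Λ L h ++ str Λ L' (fun p => h (L + p)) := by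
  simp only [str, List.range_add, List.flatMap_append, List.flatMap_map]

lemma str_mul (Λ n L : ℕ) (h : ℕ → ℕ) :
    str Λ (n * L) h = (List.range n).flatMap (fun β => str Λ L (fun p => h (β * L + p))) := by
  induction n with
  | zero => simp [str]
  | succ n ih =>
    rw [Nat.succ_mul, str_add, ih, List.range_succ, List.flatMap_append]
    simp

lemma str_congr (Λ L : ℕ) {h h' : ℕ → ℕ} (e : ∀ p < L, h p = h' p) : str Λ L h = str Λ L h' := by
  unfold str
  refine List.flatMap_congr ?_
  intro p hp
  rw [e p (List.mem_range.mp hp)]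

lemma ed_shift (Λ L s : ℕ) (h : ℕ → ℕ) :
    editDist (str Λ L h) (str Λ L (fun p => h (s + p))) ≤ 2 * s * (Λ + 2) := by
  have e1 := str_add Λ L s h
  have e2 := str_add Λ s L h
  rw [add_comm s L, e1] at e2
  have := ed_of_append_eq e2
  rw [str_length, str_length] at this
  calc _ ≤ _ := this
    _ = _ := by ring

lemma exists_matching (Λ W L : ℕ) (hW : 2 * W ≤ Λ) (h h' : ℕ → ℕ) (hx : ∀ p < L, h p < W)
    (hy : ∀ p < L, h' p < W) :
    ∃ (n : ℕ) (f g : ℕ → ℕ), StrictMono f ∧ StrictMono g ∧
      (∀ s < n, f s < L ∧ g s < L ∧ h (f s) = h' (g s)) ∧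
      L ≤ n + 2 * editDist (str Λ L h) (str Λ L h') := by
  obtain ⟨w, h1, h2, h3⟩ := exists_common Λ W hW ((List.range L).map h) ((List.range L).map h')
    (by
      intro n hn
      obtain ⟨p, hp, rfl⟩ := List.mem_map.mp hn
      exact hx p (List.mem_range.mp hp))
    (by
      intro n hn
      obtain ⟨p, hp, rfl⟩ := List.mem_map.mp hn
      exact hy p (List.mem_range.mp hp))
  obtain ⟨f, hf⟩ := List.sublist_iff_exists_orderEmbedding_getElem?_eq.mp h1
  obtain ⟨g, hg⟩ := List.sublist_iff_exists_orderEmbedding_getElem?_eq.mp h2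
  refine ⟨w.length, f, g, f.strictMono, g.strictMono, ?_, ?_⟩
  · intro s hs
    have e1 := hf s
    have e2 := hg s
    rw [List.getElem?_eq_getElem hs] at e1 e2
    obtain ⟨a1, b1⟩ := List.getElem?_eq_some_iff.mp e1.symm
    obtain ⟨a2, b2⟩ := List.getElem?_eq_some_iff.mp e2.symm
    simp only [List.length_map, List.length_range] at a1 a2
    simp only [List.getElem_map, List.getElem_range] at b1 b2
    exact ⟨a1, a2, b1.trans b2.symm⟩
  · simpa [str, List.flatMap_map] using h3

end Crest.Agent.R210
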