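import Mathlib

/-! The combinatorial step: common subsequences of two words made of tagged blocks. -/

set_option autoImplicit false

namespace Crest.Agent.R210

/-- every common subsequence of the words `h 0 … h (L-1)` and `h' 0 … h' (L-1)` misses at least
`δ` symbols -/
def Defic (L δ : ℕ) (h h' : ℕ → ℕ) : Prop :=
  ∀ (S : Finset ℕ) (f g : ℕ → ℕ), StrictMonoOn f S → StrictMonoOn g S →
    (∀ s ∈ S, f s < L ∧ g s < L ∧ h (f s) = h' (g s)) → S.card + δ ≤ L

lemma mod_strictMonoOn {S : Finset ℕ} {f : ℕ → ℕ} (L β : ℕ) (hf : StrictMonoOn f S)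
    (hβ : ∀ s ∈ S, f s / L = β) : StrictMonoOn (fun s => f s % L) S := by
  intro s hs s' hs' hlt
  have h1 := hf hs hs' hlt
  have h2 := Nat.div_add_mod (f s) L
  have h3 := Nat.div_add_mod (f s') L
  rw [hβ s hs] at h2
  rw [hβ s' hs'] at h3
  show f s % L < f s' % L
  omega

lemma card_le_of_div {S : Finset ℕ} {f : ℕ → ℕ} {L : ℕ} (hL : 0 < L) (β : ℕ)
    (hf : StrictMonoOn f S) (hβ : ∀ s ∈ S, f s / L = β) : S.card ≤ L := by
  have h := (mod_strictMonoOn L β hf hβ).injOn
  have := Finset.card_le_card_of_injOn (s := S) (t := Finset.range L) (fun s => f s % L)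
    (fun s _ => by simpa using Nat.mod_lt _ hL) h
  simpa using this

lemma row_aligned {m' L δ : ℕ} (hL : 0 < L) (hm : 0 < m') (B B' : ℕ → ℕ → ℕ) (j j' : ℕ)
    (C : Finset ℕ) (hC : C.card ≤ m')
    (hD : ∀ i < 2 * m', i ∉ C → Defic L δ (B i) (B' i))
    (S : Finset ℕ) (f g : ℕ → ℕ) (hf : StrictMonoOn f S) (hg : StrictMonoOn g S)
    (hj : ∀ s ∈ S, f s / L / (2 * m') = j) (hj' : ∀ s ∈ S, g s / L / (2 * m') = j')
    (htag : ∀ s ∈ S, g s / L % (2 * m') = f s / L % (2 * m'))
    (hv : ∀ s ∈ S, B (f s / L % (2 * m')) (f s % L) = B' (f s / L % (2 * m')) (g s % L)) :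
    S.card + m' * δ ≤ 2 * m' * L := by
  classical
  have h1 : S.card = ∑ i ∈ Finset.range (2 * m'),
      (S.filter (fun s => f s / L % (2 * m') = i)).card :=
    Finset.card_eq_sum_card_fiberwise (fun s _ => by
      simpa using Nat.mod_lt _ (by omega))
  have h2 : ∀ i ∈ Finset.range (2 * m'),
      (S.filter (fun s => f s / L % (2 * m') = i)).card + (if i ∈ C then 0 else δ) ≤ L := by
    intro i hi
    have hsub : ((S.filter (fun s => f s / L % (2 * m') = i) : Finset ℕ) : Set ℕ) ⊆ S := by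
      intro s hs
      exact (Finset.mem_filter.mp hs).1
    have hfβ : ∀ s ∈ S.filter (fun s => f s / L % (2 * m') = i), f s / L = 2 * m' * j + i := by
      intro s hs
      obtain ⟨hs1, hs2⟩ := Finset.mem_filter.mp hs
      have := Nat.div_add_mod (f s / L) (2 * m')
      rw [hj s hs1, hs2] at this
      exact this.symm
    have hgβ : ∀ s ∈ S.filter (fun s => f s / L % (2 * m') = i), g s / L = 2 * m' * j' + i := by
      intro s hs
      obtain ⟨hs1, hs2⟩ := Finset.mem_filter.mp hs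
      have := Nat.div_add_mod (g s / L) (2 * m')
      rw [hj' s hs1, htag s hs1, hs2] at this
      exact this.symm
    split_ifs with hiC
    · exact card_le_of_div hL _ (hf.mono hsub) hfβ
    · refine hD i (Finset.mem_range.mp hi) hiC _ (fun s => f s % L) (fun s => g s % L)
        (mod_strictMonoOn L _ (hf.mono hsub) hfβ) (mod_strictMonoOn L _ (hg.mono hsub) hgβ) ?_
      intro s hs
      obtain ⟨hs1, hs2⟩ := Finset.mem_filter.mp hs
      refine ⟨Nat.mod_lt _ hL, Nat.mod_lt _ hL, ?_⟩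
      have := hv s hs1
      rwa [hs2] at this
  have h3 := Finset.sum_le_sum h2
  rw [Finset.sum_add_distrib, ← h1, Finset.sum_const, Finset.card_range, smul_eq_mul] at h3
  have h4 : m' * δ ≤ ∑ i ∈ Finset.range (2 * m'), (if i ∈ C then 0 else δ) := by
    have h5 : ∑ i ∈ Finset.range (2 * m') \ C, (if i ∈ C then 0 else δ) ≤
        ∑ i ∈ Finset.range (2 * m'), (if i ∈ C then 0 else δ) :=
      Finset.sum_le_sum_of_subset Finset.sdiff_subset
    have h6 : ∑ i ∈ Finset.range (2 * m') \ C, (if i ∈ C then 0 else δ) =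
        (Finset.range (2 * m') \ C).card * δ := by
      rw [Finset.sum_congr rfl (g := fun _ => δ)
        (fun i hi => if_neg (Finset.mem_sdiff.mp hi).2), Finset.sum_const, smul_eq_mul]
    have h7 : m' ≤ (Finset.range (2 * m') \ C).card := by
      have := Finset.le_card_sdiff C (Finset.range (2 * m'))
      rw [Finset.card_range] at this
      omega
    calc m' * δ ≤ (Finset.range (2 * m') \ C).card * δ := Nat.mul_le_mul_right _ h7
      _ = _ := h6.symm
      _ ≤ _ := h5
  omega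

lemma row_le {m L : ℕ} (hL : 0 < L) (hm : 0 < m) (j : ℕ)
    (S : Finset ℕ) (f : ℕ → ℕ) (hf : StrictMonoOn f S)
    (hj : ∀ s ∈ S, f s / L / m = j) : S.card ≤ m * L := by
  refine card_le_of_div (Nat.mul_pos hm hL) j hf fun s hs => ?_
  rw [mul_comm m L, ← Nat.div_div_eq_div_mul]
  exact hj s hs

lemma row_jump {m L : ℕ} (hL : 0 < L) (hm : 0 < m) (j : ℕ)
    (S T : Finset ℕ) (f g : ℕ → ℕ) (hf : StrictMonoOn f S) (hg : StrictMonoOn g S)
    (hj : ∀ s ∈ S, f s / L / m = j)
    (htag : ∀ s ∈ S, g s / L % m = f s / L % m)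
    (hT : ∀ s ∈ S, ∀ s' ∈ S, ∀ p, g s ≤ p → p ≤ g s' → p ∈ T)
    (s₁ s₂ : ℕ) (h₁ : s₁ ∈ S) (h₂ : s₂ ∈ S) (h12 : g s₁ / L / m < g s₂ / L / m) :
    S.card + (m - 1) * L ≤ T.card := by
  classical
  set A := S.filter (fun s => g s / L / m ≤ g s₁ / L / m) with hA
  have hAne : A.Nonempty := ⟨s₁, Finset.mem_filter.mpr ⟨h₁, le_rfl⟩⟩
  set t := A.max' hAne with ht
  have htA : t ∈ A := A.max'_mem hAne
  obtain ⟨htS, hto⟩ := Finset.mem_filter.mp htA
  obtain ⟨β, hβ⟩ : ∃ β, β = g t / L := ⟨_, rfl⟩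
  have hgt : g t < (β + 1) * L := by
    have := Nat.div_add_mod (g t) L
    have h2 := Nat.mod_lt (g t) hL
    rw [← hβ] at this
    nlinarith
  have hlow : ∀ s ∈ S, s ≤ t → g s < (β + 1) * L := fun s hs hst =>
    lt_of_le_of_lt (hg.monotoneOn hs htS hst) hgt
  have hhigh : ∀ s ∈ S, t < s → (β + m) * L ≤ g s := by
    intro s hs hts
    have hsA : s ∉ A := fun h => absurd (A.le_max' s h) (not_le.mpr hts)
    have ho : g s₁ / L / m < g s / L / m := by
      by_contra hcon
      exact hsA (Finset.mem_filter.mpr ⟨hs, not_lt.mp hcon⟩)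
    have hfle : f t / L ≤ f s / L := Nat.div_le_div_right (hf htS hs hts).le
    have e1 := Nat.div_add_mod (f t / L) m
    have e2 := Nat.div_add_mod (f s / L) m
    rw [hj t htS] at e1
    rw [hj s hs] at e2
    have e3 := Nat.div_add_mod (g t / L) m
    have e4 := Nat.div_add_mod (g s / L) m
    rw [htag t htS] at e3
    rw [htag s hs] at e4
    have e5 : m * (g t / L / m + 1) ≤ m * (g s / L / m) :=
      Nat.mul_le_mul_left _ (by omega)
    have e6 : β + m ≤ g s / L := by
      rw [hβ]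
      rw [mul_add, mul_one] at e5
      omega
    exact (Nat.le_div_iff_mul_le hL).mp e6
  have hs₂ : t < s₂ := by
    by_contra hcon
    have h3 : g s₂ ≤ g t := hg.monotoneOn h₂ htS (not_lt.mp hcon)
    have h4 : g s₂ / L / m ≤ g t / L / m := Nat.div_le_div_right (Nat.div_le_div_right h3)
    omega
  have hsub : S.image g ∪ Finset.Ico ((β + 1) * L) ((β + m) * L) ⊆ T := by
    intro p hp
    rcases Finset.mem_union.mp hp with hp | hp
    · obtain ⟨s, hs, rfl⟩ := Finset.mem_image.mp hp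
      exact hT s hs s hs _ le_rfl le_rfl
    · obtain ⟨hp1, hp2⟩ := Finset.mem_Ico.mp hp
      exact hT t htS s₂ h₂ p (by omega) (by have := hhigh s₂ h₂ hs₂; omega)
  have hdisj : Disjoint (S.image g) (Finset.Ico ((β + 1) * L) ((β + m) * L)) := by
    rw [Finset.disjoint_left]
    intro p hp hp'
    obtain ⟨s, hs, rfl⟩ := Finset.mem_image.mp hp
    obtain ⟨hp1, hp2⟩ := Finset.mem_Ico.mp hp'
    rcases le_or_gt s t with h | h
    · have := hlow s hs h; omega
    · have := hhigh s hs h; omega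
  have hcard := Finset.card_le_card hsub
  rw [Finset.card_union_of_disjoint hdisj, Finset.card_image_of_injOn hg.injOn, Nat.card_Ico,
    ← Nat.sub_mul] at hcard
  have e : β + m - (β + 1) = m - 1 := by omega
  rwa [e] at hcard

lemma defic_step {b' m' L δ : ℕ} (hL : 0 < L) (hm : 0 < m') (hδ : δ ≤ L)
    (B B' : ℕ → ℕ → ℕ → ℕ)
    (htag : ∀ j j' i i' p p', i < 2 * m' → i' < 2 * m' → p < L → p' < L →
      B j i p = B' j' i' p' → i = i')
    (hD : ∀ j < 2 * b', ∀ j' < 2 * b', ∃ C : Finset ℕ, C.card ≤ m' ∧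
      ∀ i < 2 * m', i ∉ C → Defic L δ (B j i) (B' j' i)) :
    Defic (2 * b' * (2 * m') * L) (b' * m' * δ)
      (fun p => B (p / L / (2 * m')) (p / L % (2 * m')) (p % L))
      (fun p => B' (p / L / (2 * m')) (p / L % (2 * m')) (p % L)) := by
  classical
  intro S f g hf hg hS
  have hm2 : 0 < 2 * m' := by omega
  have hlt : ∀ p, p < 2 * b' * (2 * m') * L → p / L / (2 * m') < 2 * b' := by
    intro p hp
    rw [Nat.div_lt_iff_lt_mul hm2, Nat.div_lt_iff_lt_mul hL]
    exact hp
  have htg : ∀ s ∈ S, g s / L % (2 * m') = f s / L % (2 * m') := fun s hs =>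
    (htag _ _ _ _ _ _ (Nat.mod_lt _ hm2) (Nat.mod_lt _ hm2) (Nat.mod_lt _ hL) (Nat.mod_lt _ hL)
      (hS s hs).2.2).symm
  set R : ℕ → Finset ℕ := fun j => S.filter (fun s => f s / L / (2 * m') = j) with hR
  set T : ℕ → Finset ℕ := fun j => (Finset.range (2 * b' * (2 * m') * L)).filter
    (fun p => ∃ s ∈ R j, ∃ s' ∈ R j, g s ≤ p ∧ p ≤ g s') with hT
  have hRS : ∀ j, ∀ s ∈ R j, s ∈ S := fun j s hs => (Finset.mem_filter.mp hs).1
  have hRj : ∀ j, ∀ s ∈ R j, f s / L / (2 * m') = j := fun j s hs => (Finset.mem_filter.mp hs).2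
  have hRsub : ∀ j, ((R j : Finset ℕ) : Set ℕ) ⊆ S := fun j s hs => hRS j s hs
  have hTmem : ∀ j, ∀ s ∈ R j, ∀ s' ∈ R j, ∀ p, g s ≤ p → p ≤ g s' → p ∈ T j := by
    intro j s hs s' hs' p h1 h2
    refine Finset.mem_filter.mpr ⟨Finset.mem_range.mpr ?_, s, hs, s', hs', h1, h2⟩
    exact lt_of_le_of_lt h2 (hS s' (hRS j s' hs')).2.1
  have h1 : S.card = ∑ j ∈ Finset.range (2 * b'), (R j).card :=
    Finset.card_eq_sum_card_fiberwise (fun s hs => by
      simpa using hlt _ (hS s hs).1)
  have h2 : ∑ j ∈ Finset.range (2 * b'), (T j).card ≤ 2 * b' * (2 * m') * L := by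
    rw [← Finset.card_biUnion]
    · refine (Finset.card_le_card (t := Finset.range (2 * b' * (2 * m') * L)) ?_).trans (by simp)
      intro p hp
      obtain ⟨j, -, hj⟩ := Finset.mem_biUnion.mp hp
      exact (Finset.mem_filter.mp hj).1
    · have key : ∀ j j', j < j' → Disjoint (T j) (T j') := by
        intro j j' hjj
        rw [Finset.disjoint_left]
        intro p hp hp'
        obtain ⟨-, s, -, s', hs', -, h2⟩ := Finset.mem_filter.mp hp
        obtain ⟨-, t, ht, t', -, h3, -⟩ := Finset.mem_filter.mp hp'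
        have hst : s' < t := by
          by_contra hcon
          have h4 : f t ≤ f s' := hf.monotoneOn (hRS _ _ ht) (hRS _ _ hs') (not_lt.mp hcon)
          have h5 : f t / L / (2 * m') ≤ f s' / L / (2 * m') :=
            Nat.div_le_div_right (Nat.div_le_div_right h4)
          rw [hRj _ _ ht, hRj _ _ hs'] at h5
          omega
        have := hg (hRS _ _ hs') (hRS _ _ ht) hst
        omega
      intro j _ j' _ hne
      rcases lt_or_gt_of_ne hne with h | h
      · exact key j j' h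
      · exact (key j' j h).symm
  have h3 : ∀ j ∈ Finset.range (2 * b'),
      2 * (R j).card + m' * δ ≤ 2 * m' * L + (T j).card := by
    intro j hj
    have hjb := Finset.mem_range.mp hj
    have hA : (R j).card ≤ 2 * m' * L := row_le hL hm2 j _ f (hf.mono (hRsub j)) (hRj j)
    have hB : (R j).card ≤ (T j).card :=
      Finset.card_le_card_of_injOn g (fun s hs => hTmem j s hs s hs _ le_rfl le_rfl)
        (hg.mono (hRsub j)).injOn
    by_cases hc : ∃ j' < 2 * b', ∀ s ∈ R j, g s / L / (2 * m') = j'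
    · obtain ⟨j', hj', hall⟩ := hc
      obtain ⟨C, hC, hCD⟩ := hD j hjb j' hj'
      have := row_aligned hL hm (B j) (B' j') j j' C hC hCD (R j) f g (hf.mono (hRsub j))
        (hg.mono (hRsub j)) (hRj j) hall (fun s hs => htg s (hRS j s hs)) (by
          intro s hs
          have := (hS s (hRS j s hs)).2.2
          simp only at this
          rwa [hRj j s hs, hall s hs, htg s (hRS j s hs)] at this)
      omega
    · push Not at hc
      obtain ⟨s₁, hs₁, -⟩ := hc j hjb
      obtain ⟨s₂, hs₂, hne⟩ := hc _ (hlt _ (hS s₁ (hRS j s₁ hs₁)).2.1)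
      have hjump : (R j).card + (2 * m' - 1) * L ≤ (T j).card := by
        rcases lt_or_gt_of_ne hne with h | h
        · exact row_jump hL hm2 j _ _ f g (hf.mono (hRsub j)) (hg.mono (hRsub j)) (hRj j)
            (fun s hs => htg s (hRS j s hs)) (hTmem j) s₂ s₁ hs₂ hs₁ h
        · exact row_jump hL hm2 j _ _ f g (hf.mono (hRsub j)) (hg.mono (hRsub j)) (hRj j)
            (fun s hs => htg s (hRS j s hs)) (hTmem j) s₁ s₂ hs₁ hs₂ h
      have : m' * δ ≤ (2 * m' - 1) * L := Nat.mul_le_mul (by omega) hδ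
      omega
  have h4 := Finset.sum_le_sum h3
  rw [Finset.sum_add_distrib, Finset.sum_add_distrib, ← Finset.mul_sum, ← h1, Finset.sum_const,
    Finset.sum_const, Finset.card_range, smul_eq_mul, smul_eq_mul] at h4
  nlinarith

end Crest.Agent.R210
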