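import Mathlib

/-! The arithmetic behind the spectral step. -/

set_option autoImplicit false

namespace Crest.Agent.R210
open Real

/-- `ce θ = exp (2 π i θ)` -/
noncomputable def ce (θ : ℝ) : ℂ := Complex.exp (Complex.I * ((2 * π * θ : ℝ) : ℂ))

lemma ce_add (a b : ℝ) : ce (a + b) = ce a * ce b := by
  unfold ce
  rw [← Complex.exp_add]
  congr 1
  push_cast
  ring

lemma ce_zero : ce 0 = 1 := by simp [ce]

lemma ce_int (n : ℤ) : ce n = 1 := by
  unfold ce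
  have := Complex.exp_int_mul_two_pi_mul_I n
  rw [← this]
  congr 1
  push_cast
  ring

lemma ce_nat_mul (c : ℕ) (a : ℝ) : ce (c * a) = ce a ^ c := by
  unfold ce
  rw [← Complex.exp_nat_mul]
  congr 1
  push_cast
  ring

lemma ce_sum {ι : Type*} (s : Finset ι) (a : ι → ℝ) : ce (∑ i ∈ s, a i) = ∏ i ∈ s, ce (a i) := by
  classical
  induction s using Finset.induction_on with
  | empty => simp [ce_zero]
  | insert i s hi ih => rw [Finset.sum_insert hi, Finset.prod_insert hi, ce_add, ih]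

lemma norm_ce (a : ℝ) : ‖ce a‖ = 1 := Complex.norm_exp_I_mul_ofReal _

lemma norm_ce_sub_one (a : ℝ) : ‖ce a - 1‖ = 2 * |Real.sin (π * a)| := by
  unfold ce
  rw [Complex.norm_exp_I_mul_ofReal_sub_one, Real.norm_eq_abs, abs_mul, abs_two]
  congr 3
  ring

lemma one_sub_re_ce_le (a : ℝ) : 1 - (ce a).re ≤ 7 * |a| := by
  have h1 : 1 - (ce a).re ≤ ‖ce a - 1‖ := by
    have := Complex.abs_re_le_norm (ce a - 1)
    rw [Complex.sub_re, Complex.one_re] at this
    have h := neg_abs_le ((ce a).re - 1)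
    linarith
  rw [norm_ce_sub_one] at h1
  have h2 : |Real.sin (π * a)| ≤ |π * a| := Real.abs_sin_le_abs
  rw [abs_mul, abs_of_pos Real.pi_pos] at h2
  have h3 := Real.pi_lt_d2
  have h4 := abs_nonneg a
  nlinarith

lemma shift_detect (U : ℕ) (hU : 0 < U) (γ : ℝ)
    (h : 2 / (U : ℝ) * ∑ u ∈ Finset.range U, (1 - (ce γ ^ u).re) < 1) :
    ∃ n : ℤ, |γ - n| ≤ 1 / (U : ℝ) := by
  refine ⟨round γ, ?_⟩
  by_contra hcon
  push Not at hcon
  have hUr : (0 : ℝ) < U := by exact_mod_cast hU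
  set t := γ - round γ with ht
  have ht2 : |t| ≤ 1 / 2 := abs_sub_round γ
  have hζ : ce γ = ce t := by
    have : γ = t + (round γ : ℤ) := by rw [ht]; ring
    conv_lhs => rw [this]
    rw [ce_add, ce_int, mul_one]
  have h1 : 4 * |t| ≤ ‖ce t - 1‖ := by
    rw [norm_ce_sub_one]
    have h2 : |π * t| ≤ π / 2 := by
      rw [abs_mul, abs_of_pos Real.pi_pos]
      nlinarith [Real.pi_pos]
    have h3 := Real.mul_abs_le_abs_sin h2
    rw [abs_mul, abs_of_pos Real.pi_pos] at h3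
    have h4 : 2 / π * (π * |t|) = 2 * |t| := by field_simp
    linarith
  have h2 : ‖∑ u ∈ Finset.range U, ce t ^ u‖ * ‖ce t - 1‖ ≤ 2 := by
    rw [← norm_mul, geom_sum_mul]
    refine (norm_sub_le _ _).trans ?_
    rw [norm_pow, norm_ce]
    norm_num
  have h3 : (∑ u ∈ Finset.range U, ce t ^ u).re ≤ ‖∑ u ∈ Finset.range U, ce t ^ u‖ :=
    Complex.re_le_norm _
  rw [hζ, Finset.sum_sub_distrib, ← Complex.re_sum, Finset.sum_const, Finset.card_range,
    nsmul_eq_mul, mul_one, div_mul_eq_mul_div, div_lt_one hUr] at h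
  have h4 : 1 < U * |t| := by
    rw [div_lt_iff₀ hUr] at hcon
    linarith
  set X := ‖∑ u ∈ Finset.range U, ce t ^ u‖ with hX
  have hX0 : 0 ≤ X := norm_nonneg _
  have h5 : X * (4 * |t|) ≤ 2 := (mul_le_mul_of_nonneg_left h1 hX0).trans h2
  have h6 : (U : ℝ) < 2 * X := by linarith
  have h7 : 0 < |t| := lt_trans (by positivity) hcon
  nlinarith

section arith
variable {ι : Type*} [Fintype ι]

lemma dvd_of_sum_div_eq_int (q : ι → ℕ) (hq : ∀ i, 0 < q i)
    (hcop : ∀ i j, i ≠ j → Nat.Coprime (q i) (q j)) (n : ι → ℤ) (n₀ : ℤ)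
    (h : ∑ i, (n i : ℝ) / q i = n₀) (i₀ : ι) : (q i₀ : ℤ) ∣ n i₀ := by
  classical
  have h1 : ∑ i, n i * ∏ j ∈ Finset.univ.erase i, (q j : ℤ) = n₀ * ∏ j, (q j : ℤ) := by
    have : ((∑ i, n i * ∏ j ∈ Finset.univ.erase i, (q j : ℤ) : ℤ) : ℝ) =
        ((n₀ * ∏ j, (q j : ℤ) : ℤ) : ℝ) := by
      push_cast
      rw [← h, Finset.sum_mul]
      refine Finset.sum_congr rfl fun i _ => ?_
      rw [← Finset.mul_prod_erase Finset.univ _ (Finset.mem_univ i)]
      have : (q i : ℝ) ≠ 0 := by exact_mod_cast (hq i).ne'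
      field_simp
    exact_mod_cast this
  have h2 : (q i₀ : ℤ) ∣ n i₀ * ∏ j ∈ Finset.univ.erase i₀, (q j : ℤ) := by
    rw [← Finset.add_sum_erase Finset.univ _ (Finset.mem_univ i₀)] at h1
    have h3 : (q i₀ : ℤ) ∣ n₀ * ∏ j, (q j : ℤ) :=
      Dvd.dvd.mul_left (Finset.dvd_prod_of_mem _ (Finset.mem_univ i₀)) _
    have h4 : (q i₀ : ℤ) ∣ ∑ i ∈ Finset.univ.erase i₀,
        n i * ∏ j ∈ Finset.univ.erase i, (q j : ℤ) := by
      refine Finset.dvd_sum fun i hi => Dvd.dvd.mul_left ?_ _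
      refine Finset.dvd_prod_of_mem (fun j => (q j : ℤ)) ?_
      exact Finset.mem_erase.mpr ⟨(Finset.mem_erase.mp hi).1.symm, Finset.mem_univ _⟩
    rw [← h1] at h3
    exact (dvd_add_left h4).mp h3
  refine IsCoprime.dvd_of_dvd_mul_right ?_ h2
  refine IsCoprime.prod_right fun j hj => ?_
  exact Nat.isCoprime_iff_coprime.mpr (hcop _ _ (Finset.mem_erase.mp hj).1.symm)

lemma sum_div_eq_int_of_close (q : ι → ℕ) (Q r : ℕ) (hq : ∀ i, 0 < q i) (hQ : ∀ i, q i ≤ Q)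
    (hQ1 : 1 ≤ Q) (n : ι → ℤ) (n₀ : ℤ) (S : Finset ι) (hS : ∀ i, i ∉ S → (q i : ℤ) ∣ n i)
    (hr : S.card ≤ r) (κ : ℝ) (h : |∑ i, (n i : ℝ) / q i - n₀| ≤ κ) (hκ : (Q : ℝ) ^ r * κ < 1) :
    ∑ i, (n i : ℝ) / q i = n₀ := by
  classical
  set P : ℕ := ∏ i ∈ S, q i with hP
  have hPpos : 0 < P := Finset.prod_pos fun i _ => hq i
  have hPle : P ≤ Q ^ r :=
    (Finset.prod_le_pow_card S q Q fun i _ => hQ i).trans (Nat.pow_le_pow_right hQ1 hr)
  have hz : ∀ i, ∃ z : ℤ, (P : ℤ) * n i = q i * z := by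
    intro i
    by_cases hi : i ∈ S
    · exact Dvd.dvd.mul_right (Int.natCast_dvd_natCast.mpr (Finset.dvd_prod_of_mem q hi)) _
    · exact Dvd.dvd.mul_left (hS i hi) _
  choose z hz using hz
  have h1 : ((∑ i, z i - P * n₀ : ℤ) : ℝ) = P * (∑ i, (n i : ℝ) / q i - n₀) := by
    push_cast
    rw [mul_sub, Finset.mul_sum]
    congr 1
    refine Finset.sum_congr rfl fun i _ => ?_
    have h2 : (q i : ℝ) ≠ 0 := by exact_mod_cast (hq i).ne'
    have h3 : (P : ℝ) * n i = q i * z i := by exact_mod_cast hz i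
    field_simp
    linarith
  have hPr : (0 : ℝ) < P := by exact_mod_cast hPpos
  have hPle' : (P : ℝ) ≤ (Q : ℝ) ^ r := by exact_mod_cast hPle
  have h2 : |((∑ i, z i - P * n₀ : ℤ) : ℝ)| < 1 := by
    rw [h1, abs_mul, abs_of_pos hPr]
    calc (P : ℝ) * |∑ i, (n i : ℝ) / q i - n₀| ≤ (Q : ℝ) ^ r * κ :=
          mul_le_mul hPle' h (abs_nonneg _) (by positivity)
      _ < 1 := hκ
  have h3 : (∑ i, z i - P * n₀ : ℤ) = 0 := by
    rw [← Int.cast_abs] at h2
    exact Int.abs_lt_one_iff.mp (by exact_mod_cast h2)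
  rw [h3, Int.cast_zero] at h1
  rcases mul_eq_zero.mp h1.symm with h4 | h4
  · exact absurd h4 hPr.ne'
  · linarith

open Classical in
lemma spec_arith (q c d : ι → ℕ) (q' Q r : ℕ) (hq' : 0 < q') (hq : ∀ i, 0 < q i)
    (hQ : ∀ i, q i ≤ Q) (hQ1 : 1 ≤ Q) (hcop : ∀ i j, i ≠ j → Nat.Coprime (q i) (q j))
    (hcd : ∀ i, q' * c i = 1 + d i * q i) (hd : ∀ i, d i ≤ Q)
    (n : ι → ℤ) (e : ι → ℝ) (ε η : ℝ) (he : ∀ i, |e i| ≤ ε) (n₀ : ℤ)
    (hγ : |∑ i, ((n i : ℝ) + e i) / q i - n₀| ≤ η)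
    (hsmall : (Q : ℝ) ^ r * (η + Fintype.card ι * ε) < 1) :
    ∃ (n' : ℤ) (e' : ℝ), |e'| ≤ η + Fintype.card ι * Q * ε ∧
      ∑ i, (c i : ℝ) * (((n i : ℝ) + e i) / q i) = ((n' : ℝ) + e') / q' ∧
      ((q' : ℤ) ∣ n' ∨ r ≤ (Finset.univ.filter (fun i => ¬ (q i : ℤ) ∣ n i)).card) := by
  have hqr : ∀ i, (0 : ℝ) < q i := fun i => by exact_mod_cast hq i
  have hq'r : (0 : ℝ) < q' := by exact_mod_cast hq'
  refine ⟨n₀ + ∑ i, d i * n i, (∑ i, ((n i : ℝ) + e i) / q i - n₀) + ∑ i, d i * e i, ?_, ?_, ?_⟩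
  · refine (abs_add_le _ _).trans (add_le_add hγ ?_)
    refine (Finset.abs_sum_le_sum_abs _ _).trans ?_
    have : ∀ i ∈ Finset.univ, |(d i : ℝ) * e i| ≤ Q * ε := by
      intro i _
      rw [abs_mul, Nat.abs_cast]
      exact mul_le_mul (by exact_mod_cast hd i) (he i) (abs_nonneg _) (by positivity)
    refine (Finset.sum_le_sum this).trans ?_
    rw [Finset.sum_const, Finset.card_univ, nsmul_eq_mul, mul_assoc]
  · rw [eq_div_iff hq'r.ne', Finset.sum_mul]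
    push_cast
    have : ∀ i ∈ Finset.univ, (c i : ℝ) * (((n i : ℝ) + e i) / q i) * q' =
        ((n i : ℝ) + e i) / q i + (d i * n i + d i * e i) := by
      intro i _
      have h1 : (q' : ℝ) * c i = 1 + d i * q i := by exact_mod_cast hcd i
      have h2 := (hqr i).ne'
      calc (c i : ℝ) * (((n i : ℝ) + e i) / q i) * q'
          = ((q' : ℝ) * c i) * (((n i : ℝ) + e i) / q i) := by ring
        _ = _ := by rw [h1]; field_simp
    rw [Finset.sum_congr rfl this, Finset.sum_add_distrib, Finset.sum_add_distrib]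
    ring
  · by_cases hr : r ≤ (Finset.univ.filter (fun i => ¬ (q i : ℤ) ∣ n i)).card
    · exact Or.inr hr
    left
    have hclose : |∑ i, (n i : ℝ) / q i - n₀| ≤ η + Fintype.card ι * ε := by
      have e1 : ∑ i, (n i : ℝ) / q i - n₀ =
          (∑ i, ((n i : ℝ) + e i) / q i - n₀) - ∑ i, e i / q i := by
        simp_rw [add_div]
        rw [Finset.sum_add_distrib]
        ring
      rw [e1]
      refine (abs_sub _ _).trans (add_le_add hγ ?_)
      refine (Finset.abs_sum_le_sum_abs _ _).trans ?_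
      have : ∀ i ∈ Finset.univ, |e i / q i| ≤ ε := by
        intro i _
        rw [abs_div, Nat.abs_cast]
        refine (div_le_self (abs_nonneg _) ?_).trans (he i)
        exact_mod_cast hq i
      refine (Finset.sum_le_sum this).trans ?_
      rw [Finset.sum_const, Finset.card_univ, nsmul_eq_mul]
    have heq := sum_div_eq_int_of_close q Q r hq hQ hQ1 n n₀
      (Finset.univ.filter (fun i => ¬ (q i : ℤ) ∣ n i)) (fun i hi => by simpa using hi)
      (not_le.mp hr).le _ hclose hsmall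
    have hdv := dvd_of_sum_div_eq_int q hq hcop n n₀ heq
    choose k hk using hdv
    have hn₀ : n₀ = ∑ i, k i := by
      have : (n₀ : ℝ) = ((∑ i, k i : ℤ) : ℝ) := by
        rw [← heq]
        push_cast
        refine Finset.sum_congr rfl fun i _ => ?_
        rw [hk i]
        have h2 := (hqr i).ne'
        push_cast
        field_simp
      exact_mod_cast this
    refine ⟨∑ i, c i * k i, ?_⟩
    rw [hn₀, ← Finset.sum_add_distrib, Finset.mul_sum]
    refine Finset.sum_congr rfl fun i _ => ?_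
    have h1 : (q' : ℤ) * c i = 1 + d i * q i := by exact_mod_cast hcd i
    rw [hk i, ← mul_assoc (q' : ℤ), h1]
    ring

omit [Fintype ι] in
lemma card_dvd_le (q : ι → ℕ) (hq : ∀ i, 2 ≤ q i)
    (hcop : ∀ i j, i ≠ j → Nat.Coprime (q i) (q j)) (Z : ℤ) (hZ : Z ≠ 0) (m' : ℕ)
    (hm : |Z| ≤ 2 ^ m') (C : Finset ι) (hC : ∀ i ∈ C, (q i : ℤ) ∣ Z) : C.card ≤ m' := by
  classical
  have h1 : ∏ i ∈ C, (q i : ℤ) ∣ Z := by
    refine Finset.prod_dvd_of_coprime ?_ hC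
    intro i _ j _ hij
    exact Nat.isCoprime_iff_coprime.mpr (hcop i j hij)
  have h2 : ∏ i ∈ C, (q i : ℤ) ≤ |Z| := Int.le_of_dvd (abs_pos.mpr hZ) ((dvd_abs _ _).mpr h1)
  have h3 : 2 ^ C.card ≤ ∏ i ∈ C, q i := Finset.pow_card_le_prod C q 2 fun i _ => hq i
  have h4 : ((2 ^ C.card : ℕ) : ℤ) ≤ ((2 ^ m' : ℕ) : ℤ) := by
    calc ((2 ^ C.card : ℕ) : ℤ) ≤ ((∏ i ∈ C, q i : ℕ) : ℤ) := by exact_mod_cast h3
      _ = ∏ i ∈ C, (q i : ℤ) := by push_cast; rfl
      _ ≤ |Z| := h2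
      _ ≤ _ := by push_cast; exact hm
  have h5 : 2 ^ C.card ≤ 2 ^ m' := by exact_mod_cast h4
  exact (Nat.pow_le_pow_iff_right (by norm_num)).mp h5

end arith

end Crest.Agent.R210
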