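import Crest.Agent.R210.Edit
import Crest.Agent.R210.Far
import Crest.Agent.R210.Spec

/-! The recursive construction: leaves and the inductive step. -/

set_option autoImplicit false

namespace Crest.Agent.R210
open Crest.GeometryTopology.EditDistance

/-- A family of words indexed by a finite abelian group, with a far direction `a` and a positive
functional `N` supported on cheap moves. -/
structure Gadget (Λ q W L δ Bd : ℕ) (ε τ B : ℝ) where
  G : Type
  [acg : AddCommGroup G]
  [fin : Fintype G]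
  a : G
  φ : G → ℕ → ℕ → ℕ
  N : (G → ℝ) →ₗ[ℝ] ℝ
  tag : ∀ x t p, p < L → φ x t p / W = t
  far : ∀ n : ℤ, ¬ (q : ℤ) ∣ n → |n| ≤ Bd → ∀ x t, Defic L δ (φ x t) (φ (x + n • a) t)
  pos : ∀ h : G → ℝ, (∀ z, 0 ≤ h z) → 0 ≤ N h
  cost : ∀ h : G → ℝ, (∀ (z : G) (c : ℝ),
    (∀ x t, (editDist (str Λ L (φ x t)) (str Λ L (φ (x + z) t)) : ℝ) ≤ c) → h z ≤ c) → N h ≤ B
  spec : ∀ χ : AddChar G ℂ, N (fun z => 1 - (χ z).re) < 1 → ∃ (n : ℤ) (e : ℝ), |e| ≤ ε ∧
    χ a = ce ((n + e) / q) ∧ ((q : ℤ) ∣ n ∨ τ ≤ N (fun z => 1 - (χ z).re))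

attribute [instance] Gadget.acg Gadget.fin

lemma one_sub_re_nonneg {G : Type} [AddCommGroup G] [Fintype G] (χ : AddChar G ℂ) (z : G) :
    0 ≤ 1 - (χ z).re := by
  have h := Complex.re_le_norm (χ z)
  rw [AddChar.norm_apply] at h
  linarith

lemma sum_one_sub_re {G : Type} [AddCommGroup G] [Fintype G] (χ : AddChar G ℂ) (hχ : χ ≠ 0) :
    ∑ z, (1 - (χ z).re) = Fintype.card G := by
  rw [Finset.sum_sub_distrib, ← Complex.re_sum, AddChar.sum_eq_zero_iff_ne_zero.mpr hχ]
  simp

lemma addChar_sum {G ι : Type} [AddCommGroup G] (χ : AddChar G ℂ) (s : Finset ι) (f : ι → G) :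
    χ (∑ i ∈ s, f i) = ∏ i ∈ s, χ (f i) := by
  classical
  induction s using Finset.induction_on with
  | empty => simp
  | insert i s hi ih => rw [Finset.sum_insert hi, Finset.prod_insert hi, AddChar.map_add_eq_mul, ih]

lemma leaf (Λ q Q Bd : ℕ) (ρ : ℝ) (hq : 0 < q) (hQ : q ≤ Q) (hρ : 0 ≤ ρ) :
    Nonempty (Gadget Λ q Q 1 1 Bd 0 ρ (2 * ρ)) := by
  have : NeZero q := ⟨hq.ne'⟩
  have hqr : (0 : ℝ) < q := by exact_mod_cast hq
  have hN : ∀ h : ZMod q → ℝ,
      ((ρ / q) • ∑ z : ZMod q, (LinearMap.proj z : (ZMod q → ℝ) →ₗ[ℝ] ℝ)) h =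
        ρ / q * ∑ z, h z := by
    intro h
    simp [LinearMap.sum_apply]
  refine ⟨{ G := ZMod q
            a := 1
            φ := fun x t _ => t * Q + x.val
            N := (ρ / q) • ∑ z : ZMod q, LinearMap.proj z
            tag := ?_, far := ?_, pos := ?_, cost := ?_, spec := ?_ }⟩
  · intro x t p _
    have h1 : x.val < Q := (ZMod.val_lt x).trans_le hQ
    rw [add_comm, Nat.add_mul_div_right _ _ (by omega), Nat.div_eq_of_lt h1, zero_add]
  · intro n hn _ x t S f g _ _ hS
    have : S = ∅ := by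
      by_contra hne
      obtain ⟨s, hs⟩ := Finset.nonempty_iff_ne_empty.mpr hne
      have h1 := (hS s hs).2.2
      simp only [add_right_inj] at h1
      have h2 := ZMod.val_injective q h1
      apply hn
      rw [← ZMod.intCast_zmod_eq_zero_iff_dvd]
      simpa using h2
    simp [this]
  · intro h hh
    rw [hN]
    exact mul_nonneg (by positivity) (Finset.sum_nonneg fun z _ => hh z)
  · intro h hh
    rw [hN]
    have h1 : ∀ z ∈ (Finset.univ : Finset (ZMod q)), h z ≤ 2 := by
      intro z _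
      refine hh z 2 fun x t => ?_
      have := ed_code Λ (t * Q + x.val) (t * Q + (x + z).val)
      simp only [str, List.range_one, List.flatMap_cons, List.flatMap_nil, List.append_nil]
      exact_mod_cast this
    have h2 := Finset.sum_le_sum h1
    rw [Finset.sum_const, Finset.card_univ, ZMod.card, nsmul_eq_mul] at h2
    calc ρ / q * ∑ z, h z ≤ ρ / q * (q * 2) := mul_le_mul_of_nonneg_left h2 (by positivity)
      _ = 2 * ρ := by field_simp
  · intro χ _
    by_cases hχ : χ = 0
    · refine ⟨0, 0, by simp, ?_, Or.inl (dvd_zero _)⟩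
      simp [hχ, ce_zero]
    · have h1 : χ 1 ^ q = 1 := by
        rw [← AddChar.map_nsmul_eq_pow]
        simp
      obtain ⟨i, -, hi⟩ := (Complex.isPrimitiveRoot_exp q hq.ne').eq_pow_of_pow_eq_one h1
      refine ⟨i, 0, by simp, ?_, Or.inr ?_⟩
      · rw [← hi, ← Complex.exp_nat_mul, ce]
        congr 1
        push_cast
        ring
      · rw [hN, sum_one_sub_re χ hχ, ZMod.card]
        field_simp
        exact le_rfl

lemma sum_mod_eq (b m i : ℕ) (hi : i < m) (c : ℝ) :
    ∑ β ∈ Finset.range (b * m), (if β % m = i then c else 0) = b * c := by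
  induction b with
  | zero => simp
  | succ b ih =>
    rw [Nat.succ_mul, Finset.sum_range_add, ih]
    have : ∑ x ∈ Finset.range m, (if (b * m + x) % m = i then c else 0) = c := by
      rw [Finset.sum_eq_single i]
      · rw [if_pos]
        rw [add_comm, Nat.add_mul_mod_self_right, Nat.mod_eq_of_lt hi]
      · intro x hx hxi
        rw [if_neg]
        rwa [add_comm, Nat.add_mul_mod_self_right, Nat.mod_eq_of_lt (Finset.mem_range.mp hx)]
      · intro h
        exact absurd (Finset.mem_range.mpr hi) h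
    rw [this]
    push_cast
    ring

lemma node (Λ Q W L δ Bd Bd' m' b' U r q' : ℕ) (ε τ B : ℝ) (q : Fin (2 * m') → ℕ)
    (hL : 0 < L) (hδ : δ ≤ L) (hm : 0 < m') (hb : 0 < b') (hU : 0 < U)
    (hq2 : ∀ i, 2 ≤ q i) (hqQ : ∀ i, q i ≤ Q)
    (hcop : ∀ i j, i ≠ j → Nat.Coprime (q i) (q j)) (hcop' : ∀ i, Nat.Coprime q' (q i))
    (hq' : 0 < q') (hq'Q : q' ≤ Q)
    (hBd : Bd' * Q + 2 * b' ≤ Bd) (hBd' : Bd' + Q * (2 * b') ≤ 2 ^ m')
    (hsmall : (Q : ℝ) ^ r * (1 / U + (2 * m' : ℕ) * ε) < 1) (hτ : 0 ≤ τ)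
    (Γ : (i : Fin (2 * m')) → Gadget Λ (q i) W L δ Bd ε τ B) :
    Nonempty (Gadget Λ q' (W * (2 * m')) (2 * b' * (2 * m') * L) (b' * m' * δ) Bd'
      (1 / U + (2 * m' : ℕ) * Q * ε) (r * τ)
      ((2 * m' : ℕ) * (2 * b' : ℕ) * B + 4 * U * (2 * m' : ℕ) * L * (Λ + 2))) := by
  classical
  have hm2 : 0 < 2 * m' := by omega
  have hUr : (0 : ℝ) < U := by exact_mod_cast hU
  have hc : ∀ i, ∃ c d : ℕ, c ≤ Q ∧ d ≤ Q ∧ q' * c = 1 + d * q i := by
    intro i
    obtain ⟨c, hc1, hc2⟩ := Nat.exists_mul_mod_eq_one_of_coprime (hcop' i) (hq2 i)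
    have h1 := Nat.div_add_mod (q' * c) (q i)
    rw [hc2] at h1
    refine ⟨c, q' * c / q i, hc1.le.trans (hqQ i), ?_, by rw [mul_comm _ (q i)]; omega⟩
    refine le_trans ?_ hq'Q
    refine Nat.div_le_of_le_mul ?_
    rw [mul_comm (q i)]
    exact Nat.mul_le_mul_left _ hc1.le
  choose c d hcQ hdQ hcd using hc
  let G := (i : Fin (2 * m')) → (Γ i).G
  let g : G := fun i => (Γ i).a
  let blk : G → ℕ → ℕ → ℕ → ℕ → ℕ := fun x t j i p =>
    if h : i < 2 * m' then (Γ ⟨i, h⟩).φ (x ⟨i, h⟩ + j • (Γ ⟨i, h⟩).a) (t * (2 * m') + i) p else 0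
  let φ : G → ℕ → ℕ → ℕ := fun x t p => blk x t (p / L / (2 * m')) (p / L % (2 * m')) (p % L)
  let N : (G → ℝ) →ₗ[ℝ] ℝ :=
    ∑ i, (Γ i).N ∘ₗ LinearMap.funLeft ℝ ℝ (fun z : (Γ i).G => (Pi.single i z : G)) +
      (2 / (U : ℝ)) • ∑ u ∈ Finset.range U, LinearMap.proj (u • g)
  have hN : ∀ h : G → ℝ, N h = ∑ i, (Γ i).N (fun z => h (Pi.single i z)) +
      2 / (U : ℝ) * ∑ u ∈ Finset.range U, h (u • g) := by
    intro h
    simp only [N, LinearMap.add_apply, LinearMap.sum_apply, LinearMap.smul_apply,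
      LinearMap.comp_apply, LinearMap.proj_apply, smul_eq_mul]
    rfl
  have hblk : ∀ x t j i p, i < 2 * m' → p < L → blk x t j i p / W = t * (2 * m') + i := by
    intro x t j i p hi hp
    simp only [blk, dif_pos hi]
    exact (Γ ⟨i, hi⟩).tag _ _ _ hp
  refine ⟨{ G := G
            a := fun i => c i • (Γ i).a
            φ := φ
            N := N
            tag := ?_, far := ?_, pos := ?_, cost := ?_, spec := ?_ }⟩
  · intro x t p _
    have h1 := Nat.mod_lt (p / L) hm2
    rw [← Nat.div_div_eq_div_mul]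
    simp only [φ]
    rw [hblk _ _ _ _ _ h1 (Nat.mod_lt _ hL), add_comm, Nat.add_mul_div_right _ _ hm2,
      Nat.div_eq_of_lt h1, zero_add]
  · intro n hn hnB x t
    refine defic_step hL hm hδ (blk x t) (blk (x + n • fun i => c i • (Γ i).a) t) ?_ ?_
    · intro j j' i i' p p' hi hi' hp hp' h
      have h1 := hblk x t j i p hi hp
      have h2 := hblk (x + n • fun i => c i • (Γ i).a) t j' i' p' hi' hp'
      rw [h, h2] at h1
      omega
    · intro j hj j' hj'
      set Z : ℤ := n + q' * ((j' : ℤ) - j) with hZ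
      have hZ0 : Z ≠ 0 := by
        intro h0
        apply hn
        exact ⟨-((j' : ℤ) - j), by linarith⟩
      have hjj : |(j' : ℤ) - j| ≤ (2 * b' : ℕ) := by
        rw [abs_le]; constructor <;> omega
      have hZb : |Z| ≤ 2 ^ m' := by
        have h1 : |Z| ≤ |n| + q' * |(j' : ℤ) - j| := by
          refine (abs_add_le _ _).trans ?_
          rw [abs_mul, Nat.abs_cast]
        have h2 : (q' : ℤ) * |(j' : ℤ) - j| ≤ Q * (2 * b' : ℕ) :=
          mul_le_mul (by exact_mod_cast hq'Q) hjj (abs_nonneg _) (by positivity)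
        have h3 : ((Bd' + Q * (2 * b') : ℕ) : ℤ) ≤ ((2 ^ m' : ℕ) : ℤ) := by exact_mod_cast hBd'
        push_cast at h3 h2
        linarith
      set C : Finset (Fin (2 * m')) := Finset.univ.filter (fun i => (q i : ℤ) ∣ Z) with hC
      refine ⟨C.map Fin.valEmbedding, ?_, ?_⟩
      · rw [Finset.card_map]
        exact card_dvd_le q hq2 hcop Z hZ0 m' hZb C fun i hi => (Finset.mem_filter.mp hi).2
      · intro i hi hiC
        have hnd : ¬ (q ⟨i, hi⟩ : ℤ) ∣ n * c ⟨i, hi⟩ + ((j' : ℤ) - j) := by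
          intro hdv
          apply hiC
          refine Finset.mem_map.mpr ⟨⟨i, hi⟩, Finset.mem_filter.mpr ⟨Finset.mem_univ _, ?_⟩, rfl⟩
          have h1 : (q' : ℤ) * c ⟨i, hi⟩ = 1 + d ⟨i, hi⟩ * q ⟨i, hi⟩ := by
            exact_mod_cast hcd ⟨i, hi⟩
          have h2 : Z = q' * (n * c ⟨i, hi⟩ + ((j' : ℤ) - j)) - q ⟨i, hi⟩ * (n * d ⟨i, hi⟩) := by
            rw [hZ]
            linear_combination (-n) * h1
          rw [h2]
          exact dvd_sub (Dvd.dvd.mul_left hdv _) (Dvd.intro _ rfl)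
        have hbd : |n * c ⟨i, hi⟩ + ((j' : ℤ) - j)| ≤ Bd := by
          have h1 : |n * c ⟨i, hi⟩| ≤ Bd' * Q := by
            rw [abs_mul, Nat.abs_cast]
            exact mul_le_mul hnB (by exact_mod_cast hcQ _) (by positivity) (by positivity)
          have h3 : ((Bd' * Q + 2 * b' : ℕ) : ℤ) ≤ Bd := by exact_mod_cast hBd
          push_cast at h3 hjj
          refine (abs_add_le _ _).trans ?_
          linarith
        have key := (Γ ⟨i, hi⟩).far _ hnd hbd (x ⟨i, hi⟩ + j • (Γ ⟨i, hi⟩).a) (t * (2 * m') + i)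
        have e1 : blk x t j i =
            (Γ ⟨i, hi⟩).φ (x ⟨i, hi⟩ + j • (Γ ⟨i, hi⟩).a) (t * (2 * m') + i) := by
          funext p
          simp only [blk, dif_pos hi]
        have e2 : blk (x + n • fun i => c i • (Γ i).a) t j' i =
            (Γ ⟨i, hi⟩).φ (x ⟨i, hi⟩ + j • (Γ ⟨i, hi⟩).a +
              (n * c ⟨i, hi⟩ + ((j' : ℤ) - j)) • (Γ ⟨i, hi⟩).a) (t * (2 * m') + i) := by
          funext p
          simp only [blk, dif_pos hi]
          congr 1
          show x ⟨i, hi⟩ + n • (c ⟨i, hi⟩ • (Γ ⟨i, hi⟩).a) + j' • (Γ ⟨i, hi⟩).a = _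
          module
        rw [e1, e2]
        exact key
  · intro h hh
    rw [hN]
    refine add_nonneg (Finset.sum_nonneg fun i _ => (Γ i).pos _ fun z => hh _) ?_
    exact mul_nonneg (by positivity) (Finset.sum_nonneg fun u _ => hh _)
  · intro h hh
    rw [hN]
    have hb2 : (0 : ℝ) < (2 * b' : ℕ) := by exact_mod_cast (by omega : 0 < 2 * b')
    refine add_le_add ?_ ?_
    · have h1 : ∀ i ∈ (Finset.univ : Finset (Fin (2 * m'))),
          (Γ i).N (fun z => h (Pi.single i z)) ≤ (2 * b' : ℕ) * B := by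
        intro i _
        have e : (fun z => h (Pi.single i z)) =
            ((2 * b' : ℕ) : ℝ) • (fun z => h (Pi.single i z) / (2 * b' : ℕ)) := by
          funext z
          simp only [Pi.smul_apply, smul_eq_mul]
          field_simp
        rw [e, map_smul, smul_eq_mul]
        refine mul_le_mul_of_nonneg_left ?_ hb2.le
        refine (Γ i).cost _ fun z κ hκ => ?_
        rw [div_le_iff₀ hb2, mul_comm κ]
        refine hh _ _ fun x t => ?_
        rw [str_mul, str_mul, ← sum_mod_eq (2 * b') (2 * m') i i.2 κ]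
        refine le_trans (Nat.cast_le.mpr (ed_flatMap_range _ _ _)) ?_
        push_cast
        refine Finset.sum_le_sum fun β _ => ?_
        have hβ : β % (2 * m') < 2 * m' := Nat.mod_lt _ hm2
        have e3 : ∀ y : G, str Λ L (fun p => φ y t (β * L + p)) =
            str Λ L ((Γ ⟨_, hβ⟩).φ (y ⟨_, hβ⟩ + (β / (2 * m')) • (Γ ⟨_, hβ⟩).a)
              (t * (2 * m') + β % (2 * m'))) := by
          intro y
          refine str_congr _ _ fun p hp => ?_
          have h1 : (β * L + p) / L = β := by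
            rw [add_comm, Nat.add_mul_div_right _ _ hL, Nat.div_eq_of_lt hp, zero_add]
          have h2 : (β * L + p) % L = p := by
            rw [add_comm, Nat.add_mul_mod_self_right, Nat.mod_eq_of_lt hp]
          show blk y t ((β * L + p) / L / (2 * m')) ((β * L + p) / L % (2 * m'))
            ((β * L + p) % L) = _
          rw [h1, h2]
          simp only [blk, dif_pos hβ]
        rw [e3, e3]
        split_ifs with hi
        · have hi' : (⟨β % (2 * m'), hβ⟩ : Fin (2 * m')) = i := Fin.ext hi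
          subst hi'
          rw [Pi.add_apply, Pi.single_eq_same, add_right_comm]
          exact hκ _ _
        · have hi' : (⟨β % (2 * m'), hβ⟩ : Fin (2 * m')) ≠ i := fun h => hi (congrArg Fin.val h)
          rw [Pi.add_apply, Pi.single_eq_of_ne hi', add_zero, ed_self]
          simp
      refine (Finset.sum_le_sum h1).trans ?_
      rw [Finset.sum_const, Finset.card_univ, Fintype.card_fin, nsmul_eq_mul, mul_assoc]
    · have h1 : ∀ u ∈ Finset.range U, h (u • g) ≤ 2 * U * (2 * m' : ℕ) * L * (Λ + 2) := by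
        intro u hu
        refine hh _ _ fun x t => ?_
        have e : φ (x + u • g) t = fun p => φ x t (u * (2 * m') * L + p) := by
          funext p
          have h1 : (u * (2 * m') * L + p) / L = p / L + u * (2 * m') := by
            rw [add_comm, Nat.add_mul_div_right _ _ hL]
          have h2 : (u * (2 * m') * L + p) % L = p % L := by
            rw [add_comm, Nat.add_mul_mod_self_right]
          have hβ : p / L % (2 * m') < 2 * m' := Nat.mod_lt _ hm2
          show blk (x + u • g) t (p / L / (2 * m')) (p / L % (2 * m')) (p % L) =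
            blk x t ((u * (2 * m') * L + p) / L / (2 * m')) ((u * (2 * m') * L + p) / L % (2 * m'))
              ((u * (2 * m') * L + p) % L)
          rw [h1, h2, Nat.add_mul_mod_self_right, Nat.add_mul_div_right _ _ hm2]
          simp only [blk, dif_pos hβ]
          congr 1
          show x ⟨_, hβ⟩ + u • (Γ ⟨_, hβ⟩).a + _ = _
          module
        rw [e]
        refine le_trans (Nat.cast_le.mpr (ed_shift _ _ _ _)) ?_
        have hu' : (u : ℝ) ≤ U := by exact_mod_cast (Finset.mem_range.mp hu).le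
        push_cast
        have : (0 : ℝ) ≤ 2 * (2 * m') * L * (Λ + 2) := by positivity
        nlinarith
      have h2 := Finset.sum_le_sum h1
      rw [Finset.sum_const, Finset.card_range, nsmul_eq_mul] at h2
      refine (mul_le_mul_of_nonneg_left h2 (by positivity)).trans (le_of_eq ?_)
      field_simp
      ring
  · intro χ hχ
    let χi : (i : Fin (2 * m')) → AddChar (Γ i).G ℂ := fun i =>
      χ.compAddMonoidHom (AddMonoidHom.single (fun i => (Γ i).G) i)
    have hχi : ∀ i z, χi i z = χ (Pi.single i z) := fun i z => rfl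
    have hnn : ∀ i, 0 ≤ (Γ i).N (fun z => 1 - (χi i z).re) := fun i =>
      (Γ i).pos _ fun z => one_sub_re_nonneg _ _
    have hsh : 0 ≤ 2 / (U : ℝ) * ∑ u ∈ Finset.range U, (1 - (χ (u • g)).re) :=
      mul_nonneg (by positivity) (Finset.sum_nonneg fun u _ => one_sub_re_nonneg _ _)
    have hNχ : N (fun z => 1 - (χ z).re) = ∑ i, (Γ i).N (fun z => 1 - (χi i z).re) +
        2 / (U : ℝ) * ∑ u ∈ Finset.range U, (1 - (χ (u • g)).re) := hN _
    have hsum : 0 ≤ ∑ i, (Γ i).N (fun z => 1 - (χi i z).re) := Finset.sum_nonneg fun i _ => hnn i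
    rw [hNχ] at hχ ⊢
    have hlt : ∀ i, (Γ i).N (fun z => 1 - (χi i z).re) < 1 := by
      intro i
      have := Finset.single_le_sum (f := fun i => (Γ i).N (fun z => 1 - (χi i z).re))
        (fun i _ => hnn i) (Finset.mem_univ i)
      linarith
    choose n e he hval hor using fun i => (Γ i).spec (χi i) (hlt i)
    have hprod : ∀ y : G, χ y = ∏ i, χi i (y i) := by
      intro y
      conv_lhs => rw [← Finset.univ_sum_single y]
      rw [addChar_sum]
      rfl
    have hg : χ g = ce (∑ i, ((n i : ℝ) + e i) / q i) := by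
      rw [hprod, ce_sum]
      exact Finset.prod_congr rfl fun i _ => hval i
    have hshift : 2 / (U : ℝ) * ∑ u ∈ Finset.range U,
        (1 - (ce (∑ i, ((n i : ℝ) + e i) / q i) ^ u).re) < 1 := by
      simp_rw [← hg, ← AddChar.map_nsmul_eq_pow]
      linarith
    obtain ⟨n₀, hn₀⟩ := shift_detect U hU _ hshift
    obtain ⟨n', e', h1, h2, h3⟩ := spec_arith q c d q' Q r hq' (fun i => by have := hq2 i; omega)
      hqQ (by omega) hcop hcd hdQ n e ε (1 / U) he n₀ hn₀ (by simpa using hsmall)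
    refine ⟨n', e', by simpa using h1, ?_, h3.imp id fun h4 => ?_⟩
    · rw [hprod, ← h2, ce_sum]
      refine Finset.prod_congr rfl fun i _ => ?_
      rw [AddChar.map_nsmul_eq_pow, hval i, ce_nat_mul]
    · have h5 : ∑ i ∈ Finset.univ.filter (fun i => ¬ (q i : ℤ) ∣ n i),
          (Γ i).N (fun z => 1 - (χi i z).re) ≤ ∑ i, (Γ i).N (fun z => 1 - (χi i z).re) :=
        Finset.sum_le_sum_of_subset_of_nonneg (Finset.filter_subset _ _) fun i _ _ => hnn i
      have h6 : ∑ i ∈ Finset.univ.filter (fun i => ¬ (q i : ℤ) ∣ n i), τ ≤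
          ∑ i ∈ Finset.univ.filter (fun i => ¬ (q i : ℤ) ∣ n i),
            (Γ i).N (fun z => 1 - (χi i z).re) :=
        Finset.sum_le_sum fun i hi => (hor i).resolve_left (Finset.mem_filter.mp hi).2
      rw [Finset.sum_const, nsmul_eq_mul] at h6
      have h7 : (r : ℝ) * τ ≤
          (Finset.univ.filter (fun i => ¬ (q i : ℤ) ∣ n i)).card * τ :=
        mul_le_mul_of_nonneg_right (by exact_mod_cast h4) hτ
      linarith

end Crest.Agent.R210
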