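import Mathlib

/-! An inequality between translation-averaged `ℓ¹` distances on a finite abelian group follows
from the same inequality for the functions `1 - Re χ`. -/

set_option autoImplicit false

namespace Crest.Agent.R210
open MeasureTheory
open scoped ComplexConjugate

variable {G : Type} [AddCommGroup G] [Fintype G]

lemma autocorr (v : G → ℝ) (z : G) :
    ∑ χ : AddChar G ℂ, ‖∑ x, (v x : ℂ) * χ x‖ ^ 2 * (χ z).re =
      Fintype.card G * ∑ x, v x * v (x + z) := by
  classical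
  have key : ∑ χ : AddChar G ℂ, ((‖∑ x, (v x : ℂ) * χ x‖ ^ 2 : ℝ) : ℂ) * χ z =
      ((Fintype.card G * ∑ x, v x * v (x + z) : ℝ) : ℂ) := by
    have h1 : ∀ χ : AddChar G ℂ, ((‖∑ x, (v x : ℂ) * χ x‖ ^ 2 : ℝ) : ℂ) * χ z =
        ∑ x, ∑ y, (v x : ℂ) * (v y : ℂ) * χ (x + z - y) := by
      intro χ
      rw [← Complex.normSq_eq_norm_sq, ← Complex.mul_conj, map_sum, Finset.sum_mul_sum,
        Finset.sum_mul]
      refine Finset.sum_congr rfl fun x _ => ?_
      rw [Finset.sum_mul]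
      refine Finset.sum_congr rfl fun y _ => ?_
      rw [map_mul, Complex.conj_ofReal, ← AddChar.map_neg_eq_conj, sub_eq_add_neg,
        AddChar.map_add_eq_mul, AddChar.map_add_eq_mul]
      ring
    simp_rw [h1]
    rw [Finset.sum_comm]
    push_cast
    rw [Finset.mul_sum]
    refine Finset.sum_congr rfl fun x _ => ?_
    rw [Finset.sum_comm]
    simp_rw [← Finset.mul_sum, AddChar.sum_apply_eq_ite, sub_eq_zero]
    simp only [mul_ite, mul_zero]
    rw [Finset.sum_ite_eq]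
    simp
    ring
  have := congrArg Complex.re key
  rw [Complex.re_sum, Complex.ofReal_re] at this
  rw [← this]
  refine Finset.sum_congr rfl fun χ _ => ?_
  rw [Complex.re_ofReal_mul]

lemma negtype_sq (a : G) (N : (G → ℝ) →ₗ[ℝ] ℝ)
    (hN : ∀ χ : AddChar G ℂ, 1 - (χ a).re ≤ N (fun z => 1 - (χ z).re)) (v : G → ℝ) :
    ∑ x, (v x - v (x + a)) ^ 2 ≤ N (fun z => ∑ x, (v x - v (x + z)) ^ 2) := by
  have hc : (0 : ℝ) < Fintype.card G := by exact_mod_cast Fintype.card_pos
  have key : ∀ z, ∑ x, (v x - v (x + z)) ^ 2 =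
      ∑ χ : AddChar G ℂ, (2 * ‖∑ x, (v x : ℂ) * χ x‖ ^ 2 / Fintype.card G) * (1 - (χ z).re) := by
    intro z
    have h0 := autocorr v 0
    have hz := autocorr v z
    simp only [AddChar.map_zero_eq_one, Complex.one_re, mul_one, add_zero] at h0
    have h2 : ∑ x, v (x + z) * v (x + z) = ∑ x, v x * v x :=
      Fintype.sum_equiv (Equiv.addRight z) _ _ (fun x => rfl)
    have h3 : ∑ x, (v x - v (x + z)) ^ 2 =
        ∑ x, v x * v x + ∑ x, v (x + z) * v (x + z) - 2 * ∑ x, v x * v (x + z) := by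
      rw [Finset.mul_sum, ← Finset.sum_add_distrib, ← Finset.sum_sub_distrib]
      exact Finset.sum_congr rfl fun x _ => by ring
    have h4 : ∑ χ : AddChar G ℂ,
        (2 * ‖∑ x, (v x : ℂ) * χ x‖ ^ 2 / Fintype.card G) * (1 - (χ z).re) =
        2 / Fintype.card G * (∑ χ : AddChar G ℂ, ‖∑ x, (v x : ℂ) * χ x‖ ^ 2 -
          ∑ χ : AddChar G ℂ, ‖∑ x, (v x : ℂ) * χ x‖ ^ 2 * (χ z).re) := by
      rw [← Finset.sum_sub_distrib, Finset.mul_sum]
      exact Finset.sum_congr rfl fun x _ => by ring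
    rw [h3, h4, h0, hz, h2]
    field_simp
    ring
  have e : (fun z => ∑ x, (v x - v (x + z)) ^ 2) = ∑ χ : AddChar G ℂ,
      (2 * ‖∑ x, (v x : ℂ) * χ x‖ ^ 2 / Fintype.card G) • (fun z => 1 - (χ z).re) := by
    funext z
    rw [key z, Finset.sum_apply]
    rfl
  rw [e, map_sum, key a]
  refine Finset.sum_le_sum fun χ _ => ?_
  rw [map_smul, smul_eq_mul]
  exact mul_le_mul_of_nonneg_left (hN χ) (by positivity)

omit [AddCommGroup G] in
lemma functional_eq_sum (N : (G → ℝ) →ₗ[ℝ] ℝ) :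
    ∃ c : G → ℝ, ∀ h : G → ℝ, N h = ∑ z, h z * c z := by
  classical
  refine ⟨fun z => N (fun j => if z = j then 1 else 0), fun h => ?_⟩
  rw [LinearMap.pi_apply_eq_sum_univ]
  rfl

lemma cut_sq (s t τ : ℝ) :
    ((if τ < s then (1 : ℝ) else 0) - (if τ < t then (1 : ℝ) else 0)) ^ 2 =
      (Set.Ico (min s t) (max s t)).indicator (fun _ => (1 : ℝ)) τ := by
  by_cases h1 : τ < s <;> by_cases h2 : τ < t
  · rw [Set.indicator_of_notMem]
    · simp [h1, h2]
    · intro h; have := h.1; rw [min_le_iff] at this; rcases this with h | h <;> linarith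
  · rw [Set.indicator_of_mem]
    · simp [h1, h2]
    · exact ⟨min_le_of_right_le (not_lt.mp h2), lt_max_of_lt_left h1⟩
  · rw [Set.indicator_of_mem]
    · simp [h1, h2]
    · exact ⟨min_le_of_left_le (not_lt.mp h1), lt_max_of_lt_right h2⟩
  · rw [Set.indicator_of_notMem]
    · simp [h1, h2]
    · intro h; have := h.2; rw [lt_max_iff] at this; tauto

lemma cut_integrable (s t : ℝ) : Integrable (fun τ : ℝ =>
    ((if τ < s then (1 : ℝ) else 0) - (if τ < t then (1 : ℝ) else 0)) ^ 2) := by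
  simp_rw [cut_sq]
  rw [integrable_indicator_iff measurableSet_Ico]
  exact integrableOn_const (by simp)

lemma cut_integral (s t : ℝ) : ∫ τ : ℝ,
    ((if τ < s then (1 : ℝ) else 0) - (if τ < t then (1 : ℝ) else 0)) ^ 2 = |s - t| := by
  simp_rw [cut_sq]
  rw [integral_indicator measurableSet_Ico]
  simp only [integral_const, MeasurableSet.univ, measureReal_restrict_apply, Set.univ_inter,
    smul_eq_mul, mul_one]
  rw [Real.volume_real_Ico_of_le min_le_max, max_sub_min_eq_abs, abs_sub_comm]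

lemma negtype_abs (a : G) (N : (G → ℝ) →ₗ[ℝ] ℝ)
    (hN : ∀ χ : AddChar G ℂ, 1 - (χ a).re ≤ N (fun z => 1 - (χ z).re)) (u : G → ℝ) :
    ∑ x, |u x - u (x + a)| ≤ N (fun z => ∑ x, |u x - u (x + z)|) := by
  obtain ⟨c, hc⟩ := functional_eq_sum N
  set Φ : ℝ → G → ℝ := fun τ z => ∑ x,
    ((if τ < u x then (1 : ℝ) else 0) - (if τ < u (x + z) then (1 : ℝ) else 0)) ^ 2 with hΦ
  have hint : ∀ z, Integrable (fun τ => Φ τ z) := fun z =>
    integrable_finsetSum _ fun x _ => cut_integrable _ _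
  have hval : ∀ z, ∫ τ, Φ τ z = ∑ x, |u x - u (x + z)| := by
    intro z
    rw [hΦ]
    simp only
    rw [integral_finsetSum _ fun x _ => cut_integrable _ _]
    exact Finset.sum_congr rfl fun x _ => cut_integral _ _
  have hle : ∀ τ, Φ τ a ≤ ∑ z, Φ τ z * c z := by
    intro τ
    rw [← hc]
    exact negtype_sq a N hN (fun x => if τ < u x then (1 : ℝ) else 0)
  rw [hc, ← hval a]
  have h2 : ∑ z, (∑ x, |u x - u (x + z)|) * c z = ∫ τ, ∑ z, Φ τ z * c z := by
    rw [integral_finsetSum _ fun z _ => (hint z).mul_const _]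
    refine Finset.sum_congr rfl fun z _ => ?_
    rw [integral_mul_const, hval]
  rw [h2]
  exact integral_mono (hint a) (integrable_finsetSum _ fun z _ => (hint z).mul_const _) hle

lemma negtype (a : G) (N : (G → ℝ) →ₗ[ℝ] ℝ)
    (hN : ∀ χ : AddChar G ℂ, 1 - (χ a).re ≤ N (fun z => 1 - (χ z).re))
    (F : G → lp (fun _ : ℕ => ℝ) 1) :
    ∑ x, ‖F x - F (x + a)‖ ≤ N (fun z => ∑ x, ‖F x - F (x + z)‖) := by
  obtain ⟨c, hc⟩ := functional_eq_sum N
  have hs : ∀ z, HasSum (fun k : ℕ => ∑ x, |F x k - F (x + z) k|) (∑ x, ‖F x - F (x + z)‖) := by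
    intro z
    refine hasSum_sum fun x _ => ?_
    have := lp.hasSum_norm (p := 1) (by simp) (F x - F (x + z))
    simpa using this
  rw [hc]
  refine hasSum_le (fun k => ?_) (hs a) (hasSum_sum fun z _ => (hs z).mul_right (c z))
  rw [← hc]
  exact negtype_abs a N hN (fun x => F x k)

end Crest.Agent.R210
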