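import Crest.Agent.R210.Tower

/-! The choice of parameters. -/

set_option autoImplicit false

namespace Crest.Agent.R210
open Crest.GeometryTopology.EditDistance

lemma many_primes (K : ℕ) (hK : 10 ≤ K) : ∀ j < K ^ 4, Nat.nth Nat.Prime j ≤ K ^ 6 := by
  intro j hj
  have hKr : (10 : ℝ) ≤ K := by exact_mod_cast hK
  have h1 := Chebyshev.pi_ge (K ^ 6)
  have hlog : Real.log K ≤ K := (Real.log_le_sub_one_of_pos (by linarith)).trans (by linarith)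
  have hlogpos : 0 < Real.log K := Real.log_pos (by linarith)
  have h2 : (K : ℝ) ^ 4 ≤ (Nat.primeCounting (K ^ 6) : ℝ) := by
    refine le_trans ?_ h1
    push_cast
    rw [Real.log_pow, le_div_iff₀ (by positivity)]
    have h3 : Real.log ((K : ℝ) ^ 6 + 1) ≤ 7 * K := by
      have h4 : (K : ℝ) ^ 6 + 1 ≤ (K : ℝ) ^ 7 := by
        have : (1 : ℝ) ≤ (K : ℝ) ^ 6 := one_le_pow₀ (by linarith)
        nlinarith
      refine (Real.log_le_log (by positivity) h4).trans ?_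
      rw [Real.log_pow]
      push_cast
      linarith
    have h5 := Real.log_two_gt_d9
    have h6 : (K : ℝ) ≤ (K : ℝ) ^ 5 := le_self_pow₀ (by linarith) (by norm_num)
    have h7 : (0 : ℝ) < (K : ℝ) ^ 4 := by positivity
    have h8 : (0 : ℝ) < (K : ℝ) ^ 5 := by positivity
    have h9 : (K : ℝ) ^ 4 * (((6 : ℕ) : ℝ) * Real.log K) ≤ 6 * (K : ℝ) ^ 5 := by
      push_cast
      nlinarith
    have h10 : (K : ℝ) ^ 5 * (20 * 0.69) ≤ (K : ℝ) ^ 6 * Real.log 2 ∨ K < 20 := by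
      by_cases h : K < 20
      · exact Or.inr h
      · left
        have : (20 : ℝ) ≤ K := by exact_mod_cast (not_lt.mp h)
        have e : (K : ℝ) ^ 6 * Real.log 2 = (K : ℝ) ^ 5 * (K * Real.log 2) := by ring
        rw [e]
        refine mul_le_mul_of_nonneg_left ?_ h8.le
        nlinarith
    rcases h10 with h10 | h10
    · nlinarith
    · have e : (K : ℝ) ^ 6 * Real.log 2 = (K : ℝ) ^ 5 * (K * Real.log 2) := by ring
      have h11 : (K : ℝ) ^ 5 * (10 * 0.69) ≤ (K : ℝ) ^ 6 * Real.log 2 := by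
        rw [e]
        refine mul_le_mul_of_nonneg_left ?_ h8.le
        nlinarith
      have h12 : (10 : ℝ) ^ 4 ≤ (K : ℝ) ^ 4 := pow_le_pow_left₀ (by norm_num) hKr 4
      have h13 : (K : ℝ) ^ 5 = K ^ 4 * K := by ring
      nlinarith
  have h3 : K ^ 4 ≤ Nat.primeCounting (K ^ 6) := by exact_mod_cast h2
  have h4 : j < Nat.count Nat.Prime (K ^ 6 + 1) := lt_of_lt_of_le hj h3
  exact Nat.lt_succ_iff.mp (Nat.nth_lt_of_lt_count h4)

lemma core (K : ℕ) (hK : 10 ≤ K) (hK2 : K ^ 31 ≤ 2 ^ K) : ∃ n : ℕ, n ≤ K ^ (24 * K ^ 2) ∧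
    ∀ (f : List Bool → lp (fun _ : ℕ => ℝ) 1) (s D : ℝ), 0 < s →
      (∀ x y : List Bool, x.length = n → y.length = n → x ≠ y →
        s * (editDist x y : ℝ) ≤ ‖f x - f y‖ ∧ ‖f x - f y‖ ≤ D * s * (editDist x y : ℝ)) →
      (K : ℝ) ^ K ≤ 16 * 4 ^ K * D := by
  obtain ⟨T, hT⟩ : ∃ T, T = K ^ K := ⟨_, rfl⟩
  have hK1 : 1 ≤ K := by omega
  have powK : ∀ x j, x ≤ K ^ j → x ^ K ≤ T ^ j := by
    intro x j h
    rw [hT, ← pow_mul, mul_comm, pow_mul]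
    exact Nat.pow_le_pow_left h _
  have hKT : ∀ j ≤ K, K ^ j ≤ T := fun j hj => hT ▸ Nat.pow_le_pow_right hK1 hj
  have hK2T : K * K ≤ T := by have := hKT 2 (by omega); rwa [sq] at this
  have hT100 : 100 ≤ T := le_trans (by nlinarith) hK2T
  have hT1 : 1 ≤ T := by omega
  have hstep : ∀ j, 2 * K ^ j + 1 ≤ K ^ (j + 1) := by
    intro j
    have : 1 ≤ K ^ j := Nat.one_le_pow _ _ hK1
    rw [pow_succ]
    nlinarith
  set W := K ^ 6 * (2 * K ^ 2) ^ K with hW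
  have hWT : W ≤ T ^ 4 := by
    calc W ≤ T * T ^ 3 := Nat.mul_le_mul (hKT 6 (by omega))
          (powK _ 3 (by have : 2 * K ^ 2 + 1 ≤ K ^ 3 := hstep 2; omega))
      _ = T ^ 4 := by ring
  have hWpos : 0 < W := by positivity
  have hΛ : 2 * W + 2 ≤ T ^ 5 := by
    calc 2 * W + 2 ≤ 4 * T ^ 4 := by omega
      _ ≤ T * T ^ 4 := Nat.mul_le_mul_right _ (by omega)
      _ = T ^ 5 := by ring
  have hX : (2 * K ^ 2 * K ^ 6 + 1) ^ K ≤ T ^ 9 := powK _ 9 (by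
    have : 2 * K ^ 8 + 1 ≤ K ^ 9 := hstep 8
    have e : 2 * K ^ 2 * K ^ 6 = 2 * K ^ 8 := by ring
    omega)
  have hKr : (0 : ℝ) < K := by exact_mod_cast (by omega : 0 < K)
  have hTr : (100 : ℝ) ≤ T := by exact_mod_cast hT100
  have hTK : (T : ℝ) = (K : ℝ) ^ K := by exact_mod_cast hT
  obtain ⟨Γ⟩ := tower (2 * W) (K ^ 6) (K ^ 2) (T ^ 23) (T ^ 16) K K (1 / T) (Nat.nth Nat.Prime)
    (by positivity) (by positivity) (by positivity) (by positivity) Nat.prime_nth_prime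
    (Nat.nth_injective Nat.infinite_setOfPred_prime)
    (fun j hj => many_primes K hK j (lt_of_lt_of_le hj (by
      have e : K ^ 4 = K * K * K ^ 2 := by ring
      rw [e, ← mul_assoc]
      exact Nat.mul_le_mul_right _ (by nlinarith))))
    (by
      calc 4 * T ^ 23 * (K ^ 6 + 1) ^ K ≤ T * T ^ 23 * T ^ 7 :=
            Nat.mul_le_mul (Nat.mul_le_mul_right _ (by omega))
              (powK _ 7 (by have : 2 * K ^ 6 + 1 ≤ K ^ 7 := hstep 6; omega))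
        _ = (K ^ 31) ^ K := by rw [hT]; ring
        _ ≤ (2 ^ K) ^ K := Nat.pow_le_pow_left hK2 _
        _ = 2 ^ (K ^ 2) := by rw [← pow_mul, sq])
    (by
      calc (K ^ 6) ^ K * (2 * K ^ 2 * K ^ 6 + 1) ^ K ≤ T ^ 6 * T ^ 9 :=
            Nat.mul_le_mul (powK _ 6 le_rfl) hX
        _ = T ^ 15 := by ring
        _ < T ^ 16 := Nat.pow_lt_pow_right (by omega) (by norm_num))
    K le_rfl 0 (by positivity)
  have hτ : (K : ℝ) ^ K * (1 / T) = 1 := by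
    rw [← hTK]
    field_simp
  obtain ⟨Γ'⟩ := weaken ⟨Γ⟩ rfl rfl rfl le_rfl hτ le_rfl
  refine ⟨(2 * T ^ 23 * (2 * K ^ 2)) ^ K * (2 * W + 2), ?_, fun f s D hs hf => ?_⟩
  · have h1 : 2 * T ^ 23 * (2 * K ^ 2) ≤ K ^ (23 * K + 3) := by
      have e : K ^ (23 * K + 3) = T ^ 23 * (K * K ^ 2) := by rw [hT]; ring
      rw [e]
      have : 4 * K ^ 2 ≤ K * K ^ 2 := Nat.mul_le_mul_right _ (by omega)
      nlinarith [Nat.zero_le (T ^ 23)]
    calc (2 * T ^ 23 * (2 * K ^ 2)) ^ K * (2 * W + 2) ≤ T ^ (23 * K + 3) * T ^ 5 :=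
          Nat.mul_le_mul (powK _ _ h1) hΛ
      _ = K ^ (K * (23 * K + 8)) := by rw [hT]; ring
      _ ≤ K ^ (24 * K ^ 2) := Nat.pow_le_pow_right hK1 (by nlinarith)
  · have key := gadget_bound Γ' (Nat.prime_nth_prime _).two_le (Nat.succ_le_of_lt (by positivity))
      hWpos le_rfl (by positivity) (by positivity) f s D hs hf
    have hδ : (0 : ℝ) < ((T ^ 23 * K ^ 2) ^ K : ℕ) := by positivity
    have eL : (((2 * T ^ 23 * (2 * K ^ 2) : ℕ) : ℝ)) ^ K =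
        4 ^ K * (((T ^ 23 * K ^ 2) ^ K : ℕ) : ℝ) := by
      push_cast
      rw [← mul_pow]
      congr 1
      ring
    have eL' : ((((2 * T ^ 23 * (2 * K ^ 2)) ^ K : ℕ) : ℝ)) =
        4 ^ K * (((T ^ 23 * K ^ 2) ^ K : ℕ) : ℝ) := by
      rw [← eL, Nat.cast_pow]
    rw [eL, eL'] at key
    generalize (((T ^ 23 * K ^ 2) ^ K : ℕ) : ℝ) = δ at key hδ
    have hΛr : (((2 * W : ℕ) : ℝ) + 2) ≤ (T : ℝ) ^ 5 := by exact_mod_cast hΛ
    have hXr : ((2 * K ^ 2 * K ^ 6 + 1 : ℕ) : ℝ) ^ K ≤ (T : ℝ) ^ 9 := by exact_mod_cast hX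
    have hΛ0 : (0 : ℝ) ≤ (((2 * W : ℕ) : ℝ) + 2) := by positivity
    generalize (((2 * W : ℕ) : ℝ) + 2) = ℓ at key hΛr hΛ0
    have hX0 : (0 : ℝ) ≤ ((2 * K ^ 2 * K ^ 6 + 1 : ℕ) : ℝ) ^ K := by positivity
    generalize ((2 * K ^ 2 * K ^ 6 + 1 : ℕ) : ℝ) ^ K = X at key hXr hX0
    have hT0 : (0 : ℝ) < T := by linarith
    have h2KT : 2 * (K : ℝ) ≤ T := by
      have : 2 * K ≤ T := le_trans (Nat.mul_le_mul_right _ (by omega)) hK2T
      exact_mod_cast this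
    have h1 : (K : ℝ) * (2 * ((T ^ 16 : ℕ) : ℝ) * ℓ / ((T ^ 23 : ℕ) : ℝ)) ≤ 1 / T := by
      push_cast
      rw [mul_div_assoc', div_le_div_iff₀ (by positivity) hT0]
      calc (K : ℝ) * (2 * (T : ℝ) ^ 16 * ℓ) * T = (2 * K) * ℓ * (T : ℝ) ^ 17 := by ring
        _ ≤ T * (T : ℝ) ^ 5 * (T : ℝ) ^ 17 :=
          mul_le_mul_of_nonneg_right (mul_le_mul h2KT hΛr hΛ0 hT0.le) (by positivity)
        _ = 1 * (T : ℝ) ^ 23 := by ring
    have h2 : 7 * (X / ((T ^ 16 : ℕ) : ℝ)) * ℓ ≤ 1 / T := by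
      push_cast
      rw [mul_div_assoc', div_mul_eq_mul_div, div_le_div_iff₀ (by positivity) hT0]
      calc 7 * X * ℓ * T = 7 * (X * ℓ) * T := by ring
        _ ≤ T * ((T : ℝ) ^ 9 * (T : ℝ) ^ 5) * T := by
          refine mul_le_mul_of_nonneg_right ?_ hT0.le
          exact mul_le_mul (by linarith) (mul_le_mul hXr hΛr hΛ0 (by positivity))
              (by positivity) hT0.le
        _ = 1 * (T : ℝ) ^ 16 := by ring
    have h1' : 0 ≤ (K : ℝ) * (2 * ((T ^ 16 : ℕ) : ℝ) * ℓ / ((T ^ 23 : ℕ) : ℝ)) := by positivity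
    have h2' : 0 ≤ 7 * (X / ((T ^ 16 : ℕ) : ℝ)) * ℓ := by positivity
    generalize (K : ℝ) * (2 * ((T ^ 16 : ℕ) : ℝ) * ℓ / ((T ^ 23 : ℕ) : ℝ)) = u at key h1 h1'
    generalize X / ((T ^ 16 : ℕ) : ℝ) = v at key h2 h2'
    have h4 : (0 : ℝ) < 4 ^ K := by positivity
    have e : D * (4 * (4 ^ K * δ * (2 * (1 / T) + u)) + 28 * v * (4 ^ K * δ * ℓ)) =
        δ * (4 * 4 ^ K * D * (2 * (1 / T) + u + 7 * v * ℓ)) := by ring
    rw [e] at key
    have h5 : 1 ≤ 4 * 4 ^ K * D * (2 * (1 / T) + u + 7 * v * ℓ) := by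
      by_contra hcon
      have := mul_lt_mul_of_pos_left (not_le.mp hcon) hδ
      linarith
    have h6 : 0 < 1 / (T : ℝ) := by positivity
    have hS : 0 < 2 * (1 / (T : ℝ)) + u + 7 * v * ℓ := by linarith
    have hD : 0 < 4 * 4 ^ K * D := by
      by_contra hcon
      have := mul_nonpos_of_nonpos_of_nonneg (not_lt.mp hcon) hS.le
      linarith
    have h7 : 1 ≤ 4 * 4 ^ K * D * (4 * (1 / T)) :=
      h5.trans (mul_le_mul_of_nonneg_left (by linarith) hD.le)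
    rw [← hTK]
    have h8 : 4 * 4 ^ K * D * (4 * (1 / (T : ℝ))) = 16 * 4 ^ K * D / T := by ring
    rw [h8, le_div_iff₀ hT0, one_mul] at h7
    exact h7

end Crest.Agent.R210
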