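import Crest.Agent.R210.Gadget
import Crest.Agent.R210.NegType

/-! Iterating the step, and the distortion bound given by a gadget. -/

set_option autoImplicit false

namespace Crest.Agent.R210
open Crest.GeometryTopology.EditDistance

lemma weaken {Λ q W L δ Bd W' L' δ' : ℕ} {ε τ B ε' τ' B' : ℝ}
    (h : Nonempty (Gadget Λ q W L δ Bd ε τ B)) (hW : W = W') (hL : L = L') (hδ : δ = δ')
    (hε : ε ≤ ε') (hτ : τ = τ') (hB : B ≤ B') : Nonempty (Gadget Λ q W' L' δ' Bd ε' τ' B') := by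
  subst hW hL hδ hτ
  obtain ⟨Γ⟩ := h
  exact ⟨{ G := Γ.G, a := Γ.a, φ := Γ.φ, N := Γ.N, tag := Γ.tag, far := Γ.far, pos := Γ.pos,
           cost := fun h hh => (Γ.cost h hh).trans hB,
           spec := fun χ hχ => by
             obtain ⟨n, e, h1, h2, h3⟩ := Γ.spec χ hχ
             exact ⟨n, e, h1.trans hε, h2, h3⟩ }⟩

lemma tower (Λ Q m' b' U r K : ℕ) (ρ : ℝ) (p : ℕ → ℕ) (hm : 0 < m') (hb : 0 < b') (hU : 0 < U)
    (hρ : 0 ≤ ρ) (hp : ∀ j, (p j).Prime) (hinj : Function.Injective p)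
    (hpQ : ∀ j < (K + 1) * (2 * m'), p j ≤ Q)
    (hBd : 4 * b' * (Q + 1) ^ K ≤ 2 ^ m') (hsmall : Q ^ r * (2 * m' * Q + 1) ^ K < U) :
    ∀ k ≤ K, ∀ i < 2 * m', Nonempty (Gadget Λ (p (k * (2 * m') + i)) (Q * (2 * m') ^ k)
      ((2 * b' * (2 * m')) ^ k) ((b' * m') ^ k) (2 * b' * (Q + 1) ^ (K - k))
      (((2 * m' * Q + 1 : ℕ) : ℝ) ^ k / U) ((r : ℝ) ^ k * ρ)
      (((2 * b' * (2 * m') : ℕ) : ℝ) ^ k * (2 * ρ + k * (2 * U * (Λ + 2) / b')))) := by
  have hUr : (0 : ℝ) < U := by exact_mod_cast hU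
  have hbr : (0 : ℝ) < b' := by exact_mod_cast hb
  have hidx : ∀ k ≤ K, ∀ i < 2 * m', k * (2 * m') + i < (K + 1) * (2 * m') := by
    intro k hk i hi
    have : k * (2 * m') ≤ K * (2 * m') := Nat.mul_le_mul_right _ hk
    rw [add_mul, one_mul]
    omega
  have hQ2 : 2 ≤ Q := (hp 0).two_le.trans (hpQ 0 (by positivity))
  intro k
  induction k with
  | zero =>
    intro _ i hi
    refine weaken (leaf Λ _ Q _ ρ (hp _).pos (hpQ _ (hidx 0 (by omega) i hi)) hρ)
      (by simp) (by simp) (by simp) (by positivity) (by simp) (by simp)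
  | succ k ih =>
    intro hk i hi
    have ih' := fun j : Fin (2 * m') => ih (by omega) j j.2
    have hKk : K - k = (K - (k + 1)) + 1 := by omega
    have h1 : 1 ≤ (Q + 1) ^ (K - (k + 1)) := Nat.one_le_pow _ _ (by omega)
    have hX1 : (1 : ℝ) ≤ ((2 * m' * Q + 1 : ℕ) : ℝ) ^ k :=
      one_le_pow₀ (by exact_mod_cast (by omega : 1 ≤ 2 * m' * Q + 1))
    refine weaken (node Λ Q _ _ _ _ (2 * b' * (Q + 1) ^ (K - (k + 1))) m' b' U r
      (p ((k + 1) * (2 * m') + i)) _ _ _ (fun j : Fin (2 * m') => p (k * (2 * m') + j))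
      (by positivity) ?_ hm hb hU (fun j => (hp _).two_le)
      (fun j => hpQ _ (hidx k (by omega) j j.2)) ?_ ?_ (hp _).pos (hpQ _ (hidx _ hk i hi))
      ?_ ?_ ?_ (by positivity) (fun j => (ih' j).some)) (by ring) (by ring) (by ring) ?_
      (by ring) ?_
    · exact Nat.pow_le_pow_left (by nlinarith) _
    · intro j j' hne
      refine (Nat.coprime_primes (hp _) (hp _)).mpr fun h => hne (Fin.ext ?_)
      have := hinj h
      omega
    · intro j
      refine (Nat.coprime_primes (hp _) (hp _)).mpr fun h => ?_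
      have h2 := hinj h
      have h3 := j.2
      rw [add_mul, one_mul] at h2
      omega
    · rw [hKk, pow_succ]
      nlinarith
    · refine le_trans ?_ hBd
      have h2 : (Q + 1) ^ (K - (k + 1)) ≤ (Q + 1) ^ K :=
        Nat.pow_le_pow_right (by omega) (by omega)
      have h3 : Q ≤ (Q + 1) ^ K := by
        calc Q ≤ (Q + 1) ^ 1 := by simp
          _ ≤ (Q + 1) ^ K := Nat.pow_le_pow_right (by omega) (by omega)
      nlinarith
    · have h2 : (2 * m' * Q + 1) ^ (k + 1) ≤ (2 * m' * Q + 1) ^ K :=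
        Nat.pow_le_pow_right (by omega) hk
      have h3 : Q ^ r * (2 * m' * Q + 1) ^ (k + 1) < U :=
        lt_of_le_of_lt (Nat.mul_le_mul_left _ h2) hsmall
      have h4 : (Q : ℝ) ^ r * ((2 * m' * Q + 1 : ℕ) : ℝ) ^ (k + 1) < U := by exact_mod_cast h3
      have h5 : 1 / (U : ℝ) + (2 * m' : ℕ) * (((2 * m' * Q + 1 : ℕ) : ℝ) ^ k / U) ≤
          ((2 * m' * Q + 1 : ℕ) : ℝ) ^ (k + 1) / U := by
        rw [mul_div_assoc', ← add_div, pow_succ]
        refine div_le_div_of_nonneg_right ?_ hUr.le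
        have h6 : (1 : ℝ) ≤ Q := by exact_mod_cast (by omega : 1 ≤ Q)
        have h7 : (0 : ℝ) ≤ m' := by positivity
        generalize ((2 * m' * Q + 1 : ℕ) : ℝ) ^ k = X at hX1 ⊢
        push_cast
        nlinarith [mul_nonneg (mul_nonneg h7 (sub_nonneg.mpr h6)) (by linarith : (0 : ℝ) ≤ X)]
      refine lt_of_le_of_lt (mul_le_mul_of_nonneg_left h5 (by positivity)) ?_
      rw [mul_div_assoc', div_lt_one hUr]
      exact h4
    · rw [mul_div_assoc', ← add_div, pow_succ]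
      refine div_le_div_of_nonneg_right ?_ hUr.le
      generalize ((2 * m' * Q + 1 : ℕ) : ℝ) ^ k = X at hX1 ⊢
      push_cast
      nlinarith
    · refine le_of_eq ?_
      push_cast
      field_simp
      ring

lemma gadget_bound {Λ q W L δ Bd : ℕ} {ε B : ℝ} (Γ : Gadget Λ q W L δ Bd ε 1 B) (hq : 2 ≤ q)
    (hBd : 1 ≤ Bd) (hW : 0 < W) (hΛ : 2 * W ≤ Λ) (hδ : 0 < δ) (hε : 0 ≤ ε)
    (f : List Bool → lp (fun _ : ℕ => ℝ) 1) (s D : ℝ) (hs : 0 < s)
    (hf : ∀ x y : List Bool, x.length = L * (Λ + 2) → y.length = L * (Λ + 2) → x ≠ y →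
      s * (editDist x y : ℝ) ≤ ‖f x - f y‖ ∧ ‖f x - f y‖ ≤ D * s * (editDist x y : ℝ)) :
    (δ : ℝ) ≤ D * (4 * B + 28 * ε * (L * (Λ + 2))) := by
  classical
  set w : Γ.G → List Bool := fun x => str Λ L (Γ.φ x 0) with hw
  have hlen : ∀ x, (w x).length = L * (Λ + 2) := fun x => str_length _ _ _
  have hsym : ∀ x, ∀ p < L, Γ.φ x 0 p < W := by
    intro x p hp
    have := Γ.tag x 0 p hp
    exact (Nat.div_eq_zero_iff_lt hW).mp this
  have hfar : ∀ x, δ ≤ 2 * editDist (w x) (w (x + Γ.a)) := by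
    intro x
    obtain ⟨n, f, g, hf, hg, h1, h2⟩ := exists_matching Λ W L hΛ _ _ (hsym x) (hsym (x + Γ.a))
    have h3 := Γ.far 1 (by
      intro h
      have := Int.le_of_dvd one_pos h
      omega) (by simpa using hBd) x 0 (Finset.range n) f g (hf.strictMonoOn _) (hg.strictMonoOn _)
      (by
        intro s hs
        rw [one_smul]
        exact h1 s (Finset.mem_range.mp hs))
    rw [Finset.card_range] at h3
    simp only [hw]
    omega
  have hne : ∀ x, w x ≠ w (x + Γ.a) := by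
    intro x h
    have := hfar x
    rw [← h, ed_self] at this
    omega
  have hD : 0 < D := by
    have h1 := hf _ _ (hlen 0) (hlen (0 + Γ.a)) (hne 0)
    have h2 := hfar 0
    have h3 : (0 : ℝ) < editDist (w 0) (w (0 + Γ.a)) := by
      exact_mod_cast (by omega : 0 < editDist (w 0) (w (0 + Γ.a)))
    have h4 := h1.1.trans h1.2
    by_contra hcon
    have h5 : D * s * (editDist (w 0) (w (0 + Γ.a)) : ℝ) ≤ 0 :=
      mul_nonpos_of_nonpos_of_nonneg (mul_nonpos_of_nonpos_of_nonneg (not_lt.mp hcon) hs.le) h3.le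
    have := mul_pos hs h3
    linarith
  have hup : ∀ x y, ‖f (w x) - f (w y)‖ ≤ D * s * (editDist (w x) (w y) : ℝ) := by
    intro x y
    by_cases h : w x = w y
    · rw [h, sub_self, norm_zero]
      positivity
    · exact (hf _ _ (hlen x) (hlen y) h).2
  have hc : (0 : ℝ) < Fintype.card Γ.G := by exact_mod_cast Fintype.card_pos
  set c : ℝ := (Fintype.card Γ.G : ℝ) with hcdef
  let N' : (Γ.G → ℝ) →ₗ[ℝ] ℝ := (2 : ℝ) • Γ.N + (7 * ε / c) • ∑ z : Γ.G, LinearMap.proj z
  have hN' : ∀ h : Γ.G → ℝ, N' h = 2 * Γ.N h + 7 * ε / c * ∑ z, h z := by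
    intro h
    simp [N', LinearMap.sum_apply]
  have hspec : ∀ χ : AddChar Γ.G ℂ, 1 - (χ Γ.a).re ≤ N' (fun z => 1 - (χ z).re) := by
    intro χ
    rw [hN']
    have h0 : 0 ≤ Γ.N (fun z => 1 - (χ z).re) := Γ.pos _ fun z => one_sub_re_nonneg _ _
    have h1 : 0 ≤ 7 * ε / c * ∑ z, (1 - (χ z).re) :=
      mul_nonneg (by positivity) (Finset.sum_nonneg fun z _ => one_sub_re_nonneg _ _)
    by_cases hχ : χ = 0
    · have : 1 - (χ Γ.a).re = 0 := by simp [hχ]
      linarith
    by_cases hlt : Γ.N (fun z => 1 - (χ z).re) < 1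
    · obtain ⟨n, e, he, hv, hor⟩ := Γ.spec χ hlt
      obtain ⟨k, rfl⟩ := hor.resolve_right (not_le.mpr hlt)
      have hqr : (1 : ℝ) ≤ q := by exact_mod_cast (by omega : 1 ≤ q)
      have h2 : ((((q : ℤ) * k : ℤ) : ℝ) + e) / q = (k : ℝ) + e / q := by
        push_cast
        field_simp
      rw [hv, h2, ce_add, ce_int, one_mul, sum_one_sub_re χ hχ]
      have h3 := one_sub_re_ce_le (e / q)
      have h4 : |e / q| ≤ ε := by
        rw [abs_div, Nat.abs_cast]
        exact (div_le_self (abs_nonneg _) hqr).trans he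
      have h5 : 7 * ε / c * c = 7 * ε := by field_simp
      linarith
    · have h2 := Complex.abs_re_le_norm (χ Γ.a)
      rw [AddChar.norm_apply] at h2
      have h3 := neg_abs_le (χ Γ.a).re
      linarith
  have key := negtype Γ.a N' hspec (fun x => f (w x))
  set ψ : Γ.G → ℝ := fun z => ∑ x, ‖f (w x) - f (w (x + z))‖ with hψ
  have hψle : ∀ (z : Γ.G) (κ : ℝ), (∀ x, (editDist (w x) (w (x + z)) : ℝ) ≤ κ) →
      ψ z ≤ c * D * s * κ := by
    intro z κ hκ
    have : ∀ x ∈ (Finset.univ : Finset Γ.G), ‖f (w x) - f (w (x + z))‖ ≤ D * s * κ :=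
      fun x _ => (hup _ _).trans (mul_le_mul_of_nonneg_left (hκ x) (by positivity))
    refine (Finset.sum_le_sum this).trans (le_of_eq ?_)
    rw [Finset.sum_const, Finset.card_univ, nsmul_eq_mul]
    ring
  have hpos : 0 < c * D * s := by positivity
  have h1 : Γ.N ψ ≤ c * D * s * B := by
    have e : ψ = (c * D * s) • (fun z => ψ z / (c * D * s)) := by
      funext z
      simp only [Pi.smul_apply, smul_eq_mul]
      field_simp
    rw [e, map_smul, smul_eq_mul]
    refine mul_le_mul_of_nonneg_left ?_ hpos.le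
    refine Γ.cost _ fun z κ hκ => ?_
    rw [div_le_iff₀ hpos, mul_comm κ]
    exact hψle z κ fun x => hκ x 0
  have h2 : ∑ z, ψ z ≤ c * (c * D * s * (2 * (L * (Λ + 2)))) := by
    have : ∀ z ∈ (Finset.univ : Finset Γ.G), ψ z ≤ c * D * s * (2 * (L * (Λ + 2))) := by
      intro z _
      refine hψle z _ fun x => ?_
      have := ed_le_length (w x) (w (x + z))
      rw [hlen, hlen] at this
      have h3 : (editDist (w x) (w (x + z)) : ℝ) ≤ ((L * (Λ + 2) + L * (Λ + 2) : ℕ) : ℝ) := by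
        exact_mod_cast this
      push_cast at h3
      linarith
    refine (Finset.sum_le_sum this).trans (le_of_eq ?_)
    rw [Finset.sum_const, Finset.card_univ, nsmul_eq_mul]
  have h3 : c * (s * (δ / 2)) ≤ ∑ x, ‖f (w x) - f (w (x + Γ.a))‖ := by
    have : ∀ x ∈ (Finset.univ : Finset Γ.G), s * (δ / 2) ≤ ‖f (w x) - f (w (x + Γ.a))‖ := by
      intro x _
      refine le_trans (mul_le_mul_of_nonneg_left ?_ hs.le) (hf _ _ (hlen _) (hlen _) (hne x)).1
      have : (δ : ℝ) ≤ ((2 * editDist (w x) (w (x + Γ.a)) : ℕ) : ℝ) := by exact_mod_cast hfar x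
      push_cast at this
      linarith
    refine le_trans (le_of_eq ?_) (Finset.sum_le_sum this)
    rw [Finset.sum_const, Finset.card_univ, nsmul_eq_mul]
  rw [hN'] at key
  have h4 : 7 * ε / c * ∑ z, ψ z ≤ 7 * ε * (c * D * s * (2 * (L * (Λ + 2)))) := by
    refine (mul_le_mul_of_nonneg_left h2 (by positivity)).trans (le_of_eq ?_)
    field_simp
  have h5 : c * s * δ ≤ c * s * (D * (4 * B + 28 * ε * (L * (Λ + 2)))) := by
    nlinarith
  exact le_of_mul_le_mul_left h5 (by positivity)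

end Crest.Agent.R210
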